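import Vale.Agent.P251.H.StabInput

/-!
# P241G: a weaker input class for the construction of a stable homotopy category

The class `P251.H.StabInput` without the fields on fullness, evaluation and compactness.
-/

open CategoryTheory MonoidalCategory Limits

namespace Vale.Agent.P251.H.GS

open Vale.Agent.P251.G Vale.Agent.P251.G.LC

universe v u

/-- The input of the construction of the stable homotopy category. -/
class StabInput (M : Type u) [Category.{v} M] [MonoidalCategory M] [SymmetricCategory M]
    [MonoidalClosed M] [HasZeroMorphisms M] [HasColimitsOfSize.{0, 0} M] where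
  /-- the spaces -/
  j : LC ⥤ M
  /-- `j` is a braided (strong) monoidal functor -/
  braided : j.Braided
  /-- the empty space (with one-point compactification a point) is the zero object -/
  isZero_empty : IsZero (j.obj (LC.of Empty))
  /-- `j` preserves pushouts along injective maps (of one-point compactifications) -/
  pushout {A B C D : LC} (i : A ⟶ B) (f : A ⟶ C) (g : B ⟶ D) (k : C ⟶ D)
    (hi : Function.Injective (app i)) (h : IsPushout i f g k) :
    IsPushout (j.map i) (j.map f) (j.map g) (j.map k)
  /-- the formal desuspension of the unit -/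
  L : M
  /-- the structure map `L ⊗ S¹ ⟶ 𝟙` -/
  lam : L ⊗ j.obj RR ⟶ 𝟙_ M
  /-- the rotation homotopy -/
  rot : JHomotopic j (lam ▷ (L ⊗ j.obj RR) ≫ (λ_ (L ⊗ j.obj RR)).hom)
    ((L ⊗ j.obj RR) ◁ lam ≫ (ρ_ (L ⊗ j.obj RR)).hom)

attribute [instance] StabInput.braided

namespace StabInput

variable (M : Type u) [Category.{v} M] [MonoidalCategory M] [SymmetricCategory M]
    [MonoidalClosed M] [HasZeroMorphisms M] [HasColimitsOfSize.{0, 0} M] [StabInput M]

/-- the functor from spaces -/
abbrev J : LC ⥤ M := StabInput.j

/-- the interval -/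
abbrev I : M := (J M).obj II

/-- the circle `S¹ = ℝ ∪ {∞}` -/
abbrev S : M := (J M).obj RR

/-- the pointed interval `[0, ∞]` with base point `∞` (the cone on a point) -/
abbrev CI : M := (J M).obj HH

/-- `U = L ⊗ S¹` -/
abbrev U : M := (L : M) ⊗ S M

/-- the structure map `U ⟶ 𝟙` -/
abbrev lamU : U M ⟶ 𝟙_ M := lam

variable {M}

instance : HasZeroObject M := ⟨⟨_, isZero_empty⟩⟩

/-- the inclusion at time `t` into the cylinder `X ⊗ I` -/
abbrev inc (t : unitInterval) (X : M) : X ⟶ X ⊗ I M := jincl (J M) t X

/-- homotopy of morphisms in `M` -/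
abbrev MHtpy {X Y : M} (f g : X ⟶ Y) : Prop := JHomotopic (J M) f g

/-- the cells `L^{⊗ n} ⊗ K` -/
abbrev cell (n : ℕ) (K : LC) : M := tpow (L : M) n ⊗ (J M).obj K

end StabInput

end Vale.Agent.P251.H.GS
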