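import Vale.Agent.P251.H.HM
import Vale.Agent.P241GS.Naive

/-!
# P241G (copy of P251, part H, for a weaker input class): the naive homotopy category `HM M` of a `StabInput` category

`HM M` has the objects of `M` and homotopy classes of morphisms.  It is a symmetric monoidal
category with coproducts, and `HM.proj : M ⥤ HM M` is a braided monoidal functor preserving
coproducts.
-/

open CategoryTheory MonoidalCategory Limits Topology OnePoint

namespace Vale.Agent.P251.H.GS

open Vale.Agent.P251.G Vale.Agent.P251.G.LC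

universe v u

variable {M : Type u} [Category.{v} M] [MonoidalCategory M] [SymmetricCategory M]
    [MonoidalClosed M] [HasZeroMorphisms M] [HasColimitsOfSize.{0, 0} M] [StabInput M]

namespace StabInput

omit [HasZeroMorphisms M] [StabInput M] in
/-- maps out of `(∐ X) ⊗ W` -/
theorem exists_sigma_whiskerRight_desc {ι : Type} (X : ι → M) (W : M) {Y : M}
    (H : ∀ i, X i ⊗ W ⟶ Y) :
    ∃ G : (∐ X) ⊗ W ⟶ Y, ∀ i, Sigma.ι X i ▷ W ≫ G = H i := by
  refine ⟨(PreservesCoproduct.iso (tensorRight W) X).hom ≫ Sigma.desc H, fun i => ?_⟩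
  have h : Sigma.ι X i ▷ W =
      Sigma.ι (fun i => (tensorRight W).obj (X i)) i ≫ sigmaComparison (tensorRight W) X :=
    (ι_comp_sigmaComparison (tensorRight W) X i).symm
  rw [h, Category.assoc, ← PreservesCoproduct.inv_hom, Iso.inv_hom_id_assoc]
  exact Sigma.ι_desc _ _

omit [HasZeroMorphisms M] [StabInput M] in
/-- maps out of `(∐ X) ⊗ W` are determined by their restrictions -/
theorem sigma_whiskerRight_hom_ext {ι : Type} (X : ι → M) (W : M) {Y : M}
    {G G' : (∐ X) ⊗ W ⟶ Y} (h : ∀ i, Sigma.ι X i ▷ W ≫ G = Sigma.ι X i ▷ W ≫ G') : G = G' := by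
  rw [← cancel_epi (PreservesCoproduct.iso (tensorRight W) X).inv]
  apply Sigma.hom_ext
  intro i
  have h' : Sigma.ι X i ▷ W =
      Sigma.ι (fun i => (tensorRight W).obj (X i)) i ≫ sigmaComparison (tensorRight W) X :=
    (ι_comp_sigmaComparison (tensorRight W) X i).symm
  rw [PreservesCoproduct.inv_hom]
  have := h i
  rw [h', Category.assoc, Category.assoc] at this
  exact this

namespace MHtpy

/-- homotopies on the summands of a coproduct -/
theorem sigma {ι : Type} {X : ι → M} {Y : M} {f g : ∐ X ⟶ Y}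
    (h : ∀ i, MHtpy (Sigma.ι X i ≫ f) (Sigma.ι X i ≫ g)) : MHtpy f g := by
  choose H h0 h1 using h
  obtain ⟨G, hG⟩ := exists_sigma_whiskerRight_desc X (I M) H
  refine ⟨G, ?_, ?_⟩
  · apply Sigma.hom_ext
    intro i
    rw [← inc_naturality_assoc, hG, h0]
  · apply Sigma.hom_ext
    intro i
    rw [← inc_naturality_assoc, hG, h1]

theorem sigma_map {ι : Type} {X Y : ι → M} {f g : ∀ i, X i ⟶ Y i} (h : ∀ i, MHtpy (f i) (g i)) :
    MHtpy (Limits.Sigma.map f) (Limits.Sigma.map g) := by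
  apply sigma
  intro i
  rw [Sigma.ι_map, Sigma.ι_map]
  exact (h i).comp_right _

end MHtpy

end StabInput

open StabInput

variable (M) in
/-- The naive homotopy category. -/
structure HM where
  /-- the underlying object -/
  obj : M

namespace HM

/-- the setoid of homotopy on morphisms -/
def setoid (X Y : M) : Setoid (X ⟶ Y) := ⟨MHtpy, MHtpy.equivalence X Y⟩

instance : Category (HM M) where
  Hom X Y := Quotient (setoid X.obj Y.obj)
  id X := Quotient.mk _ (𝟙 X.obj)
  comp f g := Quotient.map₂ (· ≫ ·) (fun _ _ h _ _ k => MHtpy.comp h k) f g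
  id_comp := by rintro X Y ⟨f⟩; exact congrArg (Quotient.mk _) (Category.id_comp f)
  comp_id := by rintro X Y ⟨f⟩; exact congrArg (Quotient.mk _) (Category.comp_id f)
  assoc := by
    rintro X Y Z W ⟨f⟩ ⟨g⟩ ⟨h⟩; exact congrArg (Quotient.mk _) (Category.assoc f g h)

variable (M) in
/-- the projection functor `M ⥤ HM M` -/
def proj : M ⥤ HM M where
  obj X := ⟨X⟩
  map f := Quotient.mk _ f
  map_id _ := rfl
  map_comp _ _ := rfl

theorem proj_map_surjective {X Y : HM M} (f : X ⟶ Y) :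
    ∃ g : X.obj ⟶ Y.obj, (proj M).map g = f := Quotient.exists_rep f

theorem proj_map_eq_iff {X Y : M} (f g : X ⟶ Y) :
    (proj M).map f = (proj M).map g ↔ MHtpy f g :=
  ⟨fun h => Quotient.exact h, fun h => Quotient.sound h⟩

theorem sound {X Y : M} {f g : X ⟶ Y} (h : MHtpy f g) : (proj M).map f = (proj M).map g :=
  Quotient.sound h

instance : (proj M).Full := ⟨fun f => proj_map_surjective f⟩

instance : (proj M).EssSurj := ⟨fun Y => ⟨Y.obj, ⟨Iso.refl _⟩⟩⟩

/-! ### monoidal structure -/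

instance : MonoidalCategoryStruct (HM M) where
  tensorObj X Y := ⟨X.obj ⊗ Y.obj⟩
  tensorUnit := ⟨𝟙_ M⟩
  whiskerLeft X _ _ f := Quotient.map (X.obj ◁ ·) (fun _ _ h => MHtpy.whiskerLeft X.obj h) f
  whiskerRight f Z := Quotient.map (· ▷ Z.obj) (fun _ _ h => MHtpy.whiskerRight h Z.obj) f
  tensorHom f g := Quotient.map₂ (· ⊗ₘ ·) (fun _ _ h _ _ k => MHtpy.tensor h k) f g
  associator X Y Z := (proj M).mapIso (α_ X.obj Y.obj Z.obj)
  leftUnitor X := (proj M).mapIso (λ_ X.obj)
  rightUnitor X := (proj M).mapIso (ρ_ X.obj)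

theorem proj_tensorHom {X Y Z W : M} (f : X ⟶ Y) (g : Z ⟶ W) :
    (proj M).map (f ⊗ₘ g) =
      ((proj M).map f ⊗ₘ (proj M).map g : (⟨X⟩ : HM M) ⊗ ⟨Z⟩ ⟶ (⟨Y⟩ : HM M) ⊗ ⟨W⟩) := rfl

theorem proj_whiskerLeft (X : M) {Z W : M} (g : Z ⟶ W) :
    (proj M).map (X ◁ g) = ((⟨X⟩ : HM M) ◁ (proj M).map g :
      (⟨X⟩ : HM M) ⊗ ⟨Z⟩ ⟶ (⟨X⟩ : HM M) ⊗ ⟨W⟩) := rfl

theorem proj_whiskerRight {Z W : M} (g : Z ⟶ W) (X : M) :
    (proj M).map (g ▷ X) = ((proj M).map g ▷ (⟨X⟩ : HM M) :
      (⟨Z⟩ : HM M) ⊗ ⟨X⟩ ⟶ (⟨W⟩ : HM M) ⊗ ⟨X⟩) := rfl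

instance : MonoidalCategory (HM M) where
  tensorHom_def := by
    rintro X₁ Y₁ X₂ Y₂ ⟨f⟩ ⟨g⟩
    exact congrArg (Quotient.mk _) (MonoidalCategory.tensorHom_def f g)
  id_tensorHom_id X Y := congrArg (Quotient.mk _) (MonoidalCategory.id_tensorHom_id X.obj Y.obj)
  tensorHom_comp_tensorHom := by
    rintro X₁ Y₁ Z₁ X₂ Y₂ Z₂ ⟨f₁⟩ ⟨f₂⟩ ⟨g₁⟩ ⟨g₂⟩
    exact congrArg (Quotient.mk _) (MonoidalCategory.tensorHom_comp_tensorHom f₁ f₂ g₁ g₂)
  whiskerLeft_id X Y := congrArg (Quotient.mk _) (MonoidalCategory.whiskerLeft_id X.obj Y.obj)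
  id_whiskerRight X Y := congrArg (Quotient.mk _) (MonoidalCategory.id_whiskerRight X.obj Y.obj)
  associator_naturality := by
    rintro X₁ X₂ X₃ Y₁ Y₂ Y₃ ⟨f₁⟩ ⟨f₂⟩ ⟨f₃⟩
    exact congrArg (Quotient.mk _) (MonoidalCategory.associator_naturality f₁ f₂ f₃)
  leftUnitor_naturality := by
    rintro X Y ⟨f⟩
    exact congrArg (Quotient.mk _) (MonoidalCategory.leftUnitor_naturality f)
  rightUnitor_naturality := by
    rintro X Y ⟨f⟩
    exact congrArg (Quotient.mk _) (MonoidalCategory.rightUnitor_naturality f)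
  pentagon W X Y Z :=
    congrArg (Quotient.mk _) (MonoidalCategory.pentagon W.obj X.obj Y.obj Z.obj)
  triangle X Y := congrArg (Quotient.mk _) (MonoidalCategory.triangle X.obj Y.obj)

instance : BraidedCategory (HM M) where
  braiding X Y := (proj M).mapIso (β_ X.obj Y.obj)
  braiding_naturality_right := by
    rintro X Y Z ⟨f⟩
    exact congrArg (Quotient.mk _) (BraidedCategory.braiding_naturality_right X.obj f)
  braiding_naturality_left := by
    rintro X Y ⟨f⟩ Z
    exact congrArg (Quotient.mk _) (BraidedCategory.braiding_naturality_left f Z.obj)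
  hexagon_forward X Y Z :=
    congrArg (Quotient.mk _) (BraidedCategory.hexagon_forward X.obj Y.obj Z.obj)
  hexagon_reverse X Y Z :=
    congrArg (Quotient.mk _) (BraidedCategory.hexagon_reverse X.obj Y.obj Z.obj)

instance : SymmetricCategory (HM M) where
  symmetry X Y := congrArg (Quotient.mk _) (SymmetricCategory.symmetry X.obj Y.obj)

/-- the core data of the monoidal functor `proj` -/
def coreMonoidal : (proj M).CoreMonoidal :=
    { εIso := Iso.refl ((proj M).obj (𝟙_ M))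
      μIso := fun X Y => Iso.refl ((proj M).obj (X ⊗ Y))
      μIso_hom_natural_left := fun {X Y} f Z =>
        (Category.comp_id (X := (proj M).obj (X ⊗ Z)) (Y := (proj M).obj (Y ⊗ Z))
          ((proj M).map (f ▷ Z))).trans
          (Category.id_comp (X := (proj M).obj (X ⊗ Z)) (Y := (proj M).obj (Y ⊗ Z))
            ((proj M).map (f ▷ Z))).symm
      μIso_hom_natural_right := fun {X Y} Z f =>
        (Category.comp_id (X := (proj M).obj (Z ⊗ X)) (Y := (proj M).obj (Z ⊗ Y))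
          ((proj M).map (Z ◁ f))).trans
          (Category.id_comp (X := (proj M).obj (Z ⊗ X)) (Y := (proj M).obj (Z ⊗ Y))
            ((proj M).map (Z ◁ f))).symm
      associativity := fun X Y Z => by
        have h : (𝟙 (X ⊗ Y)) ▷ Z ≫ 𝟙 ((X ⊗ Y) ⊗ Z) ≫ (α_ X Y Z).hom =
            (α_ X Y Z).hom ≫ X ◁ 𝟙 (Y ⊗ Z) ≫ 𝟙 (X ⊗ Y ⊗ Z) := by simp
        exact congrArg (Quotient.mk (setoid ((X ⊗ Y) ⊗ Z) (X ⊗ Y ⊗ Z))) h
      left_unitality := fun X => by
        have h : (λ_ X).hom = (𝟙 (𝟙_ M)) ▷ X ≫ 𝟙 (𝟙_ M ⊗ X) ≫ (λ_ X).hom := by simp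
        exact congrArg (Quotient.mk (setoid (𝟙_ M ⊗ X) X)) h
      right_unitality := fun X => by
        have h : (ρ_ X).hom = X ◁ (𝟙 (𝟙_ M)) ≫ 𝟙 (X ⊗ 𝟙_ M) ≫ (ρ_ X).hom := by simp
        exact congrArg (Quotient.mk (setoid (X ⊗ 𝟙_ M) X)) h }

/-- the projection is a monoidal functor -/
instance : (proj M).Monoidal := coreMonoidal.toMonoidal

theorem proj_μ (X Y : M) : Functor.LaxMonoidal.μ (proj M) X Y = 𝟙 ((proj M).obj (X ⊗ Y)) := rfl

theorem proj_δ (X Y : M) : Functor.OplaxMonoidal.δ (proj M) X Y = 𝟙 ((proj M).obj (X ⊗ Y)) := rfl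

theorem proj_ε : Functor.LaxMonoidal.ε (proj M) = 𝟙 ((proj M).obj (𝟙_ M)) := rfl

theorem proj_η : Functor.OplaxMonoidal.η (proj M) = 𝟙 ((proj M).obj (𝟙_ M)) := rfl

instance : (proj M).Braided where
  braided X Y := by
    change 𝟙 ((proj M).obj (X ⊗ Y)) ≫ (proj M).map (β_ X Y).hom =
      (proj M).map (β_ X Y).hom ≫ 𝟙 ((proj M).obj (Y ⊗ X))
    rw [Category.id_comp, Category.comp_id]

/-! ### zero morphisms, coproducts -/

instance : HasZeroMorphisms (HM M) where
  zero X Y := ⟨(proj M).map (0 : X.obj ⟶ Y.obj)⟩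
  comp_zero := by
    rintro X Y ⟨f⟩ Z
    exact congrArg (Quotient.mk _) (comp_zero (f := f))
  zero_comp := by
    rintro X Y Z ⟨f⟩
    exact congrArg (Quotient.mk _) (zero_comp (f := f))

theorem proj_map_zero (X Y : M) : (proj M).map (0 : X ⟶ Y) = 0 := rfl

instance : HasZeroObject (HM M) :=
  ⟨(proj M).obj ((J M).obj (LC.of Empty)), by
    rw [IsZero.iff_id_eq_zero]
    exact congrArg (Quotient.mk _) ((isZero_empty (M := M)).eq_of_src _ _)⟩

/-- the coproduct cofan in the naive homotopy category -/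
noncomputable def cofan {ι : Type} (X : ι → HM M) : Cofan X :=
  Cofan.mk ((proj M).obj (∐ fun i => (X i).obj))
    (fun i => (proj M).map (Sigma.ι (fun i => (X i).obj) i))

/-- the coproduct of `M` is a coproduct in the naive homotopy category -/
noncomputable def isColimitCofan {ι : Type} (X : ι → HM M) : IsColimit (cofan X) :=
  Cofan.IsColimit.mk _
    (fun s => Quotient.mk (setoid (∐ fun i => (X i).obj) s.pt.obj)
      (Sigma.desc (fun i => Quotient.out (s.inj i))))
    (fun s i => by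
      have h : Sigma.ι (fun i => (X i).obj) i ≫ Sigma.desc (fun i => Quotient.out (s.inj i)) =
        Quotient.out (s.inj i) := Sigma.ι_desc _ _
      exact (congrArg (Quotient.mk (setoid _ _)) h).trans (Quotient.out_eq _))
    (fun s m hm => by
      obtain ⟨m', rfl⟩ := Quotient.exists_rep m
      apply Quotient.sound
      refine MHtpy.sigma (X := fun i => (X i).obj) ?_
      intro i
      rw [Sigma.ι_desc]
      exact Quotient.exact ((hm i).trans (Quotient.out_eq (s.inj i)).symm))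

instance : HasCoproducts.{0} (HM M) :=
  hasCoproducts_of_colimit_cofans (fun X => cofan X) (fun X => isColimitCofan X)

end HM

end Vale.Agent.P251.H.GS
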