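import Vale.Agent.P251.H.Wst
import Vale.Agent.P241GS.HM

/-!
# P241G (copy of P251, part H, for a weaker input class): stable equivalences in a `StabInput` category

`stab M : StabObj (HM M)`; `Pi A X` for `A X : M` is `(stab M).coPt.Pi ⟨A⟩ ⟨X⟩`.
For a class `GG` of test objects of `M`, `piW GG` is the class of morphisms of `M` inducing
bijections on `Pi A` for all `A` in `GG`.
-/

open CategoryTheory MonoidalCategory Limits

namespace Vale.Agent.P251.H.GS

open Vale.Agent.P251.G Vale.Agent.P251.G.LC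

universe v u

variable {M : Type u} [Category.{v} M] [MonoidalCategory M] [SymmetricCategory M]
    [MonoidalClosed M] [HasZeroMorphisms M] [HasColimitsOfSize.{0, 0} M] [StabInput M]

namespace StabInput

variable (M) in
/-- The formal desuspension of the unit in the naive homotopy category. -/
@[reducible] def stab : StabObj (HM M) where
  L := ⟨(L : M)⟩
  S := ⟨S M⟩
  lam := (HM.proj M).map (lam : (L : M) ⊗ S M ⟶ 𝟙_ M)
  comm := HM.sound rot

/-- Stable homotopy classes of maps `A ⟶ X`. -/
abbrev PiM (A X : M) : Type v := (stab M).coPt.Pi ((HM.proj M).obj A) ((HM.proj M).obj X)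

/-- The map induced on stable homotopy classes by a morphism of `M`. -/
abbrev mapM (A : M) {X Y : M} (f : X ⟶ Y) : PiM A X → PiM A Y :=
  (stab M).coPt.map ((HM.proj M).obj A) ((HM.proj M).map f)

/-- The map induced on stable homotopy classes by a morphism of `M` in the first variable. -/
abbrev comapM {A B : M} (a : A ⟶ B) (X : M) : PiM B X → PiM A X :=
  (stab M).coPt.comap ((HM.proj M).map a) ((HM.proj M).obj X)

theorem mapM_comp (A : M) {X Y Z : M} (f : X ⟶ Y) (g : Y ⟶ Z) (x : PiM A X) :
    mapM A (f ≫ g) x = mapM A g (mapM A f x) := by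
  rw [mapM, Functor.map_comp, CoPt.map_comp]

@[simp] theorem mapM_id (A X : M) (x : PiM A X) : mapM A (𝟙 X) x = x := by
  rw [mapM, CategoryTheory.Functor.map_id, CoPt.map_id]

theorem mapM_congr (A : M) {X Y : M} {f g : X ⟶ Y} (h : MHtpy f g) : mapM A f = mapM A g := by
  rw [mapM, mapM, HM.sound h]

/-- The class of morphisms inducing bijections on stable homotopy classes out of the objects of a
class. -/
def piW (GG : ObjectProperty M) : MorphismProperty M :=
  ((stab M).coPt.W (fun A => GG A.obj)).inverseImage (HM.proj M)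

theorem piW_iff {GG : ObjectProperty M} {X Y : M} (f : X ⟶ Y) :
    piW GG f ↔ ∀ A, GG A → Function.Bijective (mapM A f) :=
  ⟨fun h A hA => h ⟨A⟩ hA, fun h A hA => h A.obj hA⟩

instance (GG : ObjectProperty M) : (piW GG).HasTwoOutOfThreeProperty := by
  unfold piW
  infer_instance

theorem piW_of_isIso_proj {GG : ObjectProperty M} {X Y : M} (f : X ⟶ Y)
    (h : IsIso ((HM.proj M).map f)) : piW GG f :=
  CoPt.W_of_isIso _ _ _

theorem piW_of_isIso {GG : ObjectProperty M} {X Y : M} (f : X ⟶ Y) [IsIso f] : piW GG f :=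
  piW_of_isIso_proj f inferInstance

instance (GG : ObjectProperty M) : (piW GG).IsMultiplicative where
  id_mem X := piW_of_isIso (𝟙 X)

instance (GG : ObjectProperty M) : (piW GG).RespectsIso :=
  MorphismProperty.respectsIso_of_isStableUnderComposition (fun _ _ f (_ : IsIso f) =>
    piW_of_isIso f)

theorem piW_congr {GG : ObjectProperty M} {X Y : M} {f g : X ⟶ Y} (h : MHtpy f g)
    (hf : piW GG f) : piW GG g := by
  unfold piW at hf ⊢
  rw [MorphismProperty.inverseImage_iff] at hf ⊢
  rwa [← HM.sound h]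

/-- Homotopy equivalences are stable equivalences. -/
theorem piW_of_inverse {GG : ObjectProperty M} {X Y : M} (f : X ⟶ Y) (g : Y ⟶ X)
    (hfg : MHtpy (f ≫ g) (𝟙 X)) (hgf : MHtpy (g ≫ f) (𝟙 Y)) : piW GG f :=
  piW_of_isIso_proj f ⟨(HM.proj M).map g, by
    rw [← Functor.map_comp, HM.sound hfg, CategoryTheory.Functor.map_id], by
    rw [← Functor.map_comp, HM.sound hgf, CategoryTheory.Functor.map_id]⟩

/-- A class of test objects. -/
class IsTest (GG : ObjectProperty M) : Prop extends GG.IsClosedUnderIsomorphisms where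
  susp {A : M} : GG A → GG (S M ⊗ A)
  desusp {A : M} : GG A → GG ((L : M) ⊗ A)
  fin {A : M} : GG A → FinFactor A

section

variable (GG : ObjectProperty M) [IsTest GG]

theorem IsTest.U_tensor {A : M} (h : GG A) : GG (U M ⊗ A) :=
  GG.prop_of_iso (α_ _ _ _).symm (IsTest.desusp (IsTest.susp h))

theorem IsTest.pw {A : M} (h : GG A) (k : ℕ) : GG ((stab M).coPt.pw k ⟨A⟩).obj := by
  induction k with
  | zero => exact h
  | succ k ih => exact IsTest.U_tensor GG ih

/-- a coproduct of morphisms of `HM`, restricted to a finite subset: the test objects are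
compact. -/
theorem IsTest.exists_factor {A : M} (h : GG A) {ι : Type} (X : ι → M) (x : PiM A (∐ X)) :
    ∃ (s : Finset ι) (y : PiM A (∐ (fun i : s => X i))), mapM A (sigmaSub s X) y = x := by
  obtain ⟨k, x, rfl⟩ := CoPt.cl_surj x
  obtain ⟨x, rfl⟩ := HM.proj_map_surjective x
  obtain ⟨s, g, hg⟩ := IsTest.fin (IsTest.pw GG h k) X x
  refine ⟨s, (stab M).coPt.cl k ((HM.proj M).map g), ?_⟩
  refine (CoPt.map_cl _ _ _ _ _).trans ?_
  rw [← hg]
  rfl

variable {GG}

theorem piW_whiskerLeft_S {X Y : M} (f : X ⟶ Y) : piW GG (S M ◁ f) ↔ piW GG f := by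
  constructor
  · exact fun h => (stab M).W_of_left_S (fun A => GG A.obj)
      (fun A hA => IsTest.susp (GG := GG) hA) _ h
  · exact fun h => (stab M).W_left_S (fun A => GG A.obj)
      (fun A hA => IsTest.desusp (GG := GG) hA) _ h

theorem piW_whiskerLeft_L {X Y : M} (f : X ⟶ Y) : piW GG ((L : M) ◁ f) ↔ piW GG f := by
  constructor
  · exact fun h => (stab M).W_of_left_L (fun A => GG A.obj)
      (fun A hA => IsTest.desusp (GG := GG) hA) _ h
  · exact fun h => (stab M).W_left_L (fun A => GG A.obj)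
      (fun A hA => IsTest.susp (GG := GG) hA) _ h

omit [IsTest GG] in
theorem piW_whiskerRight_iff (Z : M) {X Y : M} (f : X ⟶ Y) : piW GG (f ▷ Z) ↔ piW GG (Z ◁ f) := by
  have h : f ▷ Z = (β_ X Z).hom ≫ Z ◁ f ≫ (β_ Y Z).inv := by
    rw [← Category.assoc, ← BraidedCategory.braiding_naturality_left, Category.assoc,
      Iso.hom_inv_id, Category.comp_id]
  rw [h, (piW GG).cancel_left_of_respectsIso, (piW GG).cancel_right_of_respectsIso]

theorem piW_whiskerRight_S {X Y : M} (f : X ⟶ Y) : piW GG (f ▷ S M) ↔ piW GG f :=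
  (piW_whiskerRight_iff _ f).trans (piW_whiskerLeft_S f)

theorem piW_whiskerRight_L {X Y : M} (f : X ⟶ Y) : piW GG (f ▷ (L : M)) ↔ piW GG f :=
  (piW_whiskerRight_iff _ f).trans (piW_whiskerLeft_L f)

omit [IsTest GG] in
/-- The augmentation `(L ⊗ S) ⊗ X ⟶ X` is a stable equivalence. -/
theorem piW_lam (X : M) : piW GG (lamU M ▷ X ≫ (λ_ X).hom) :=
  (stab M).W_lam (fun A => GG A.obj) ⟨X⟩

/-- Coproducts of stable equivalences are stable equivalences, if this holds for finite
coproducts. -/
theorem piW_sigma_of_finset {ι : Type} {X Y : ι → M} (f : ∀ i, X i ⟶ Y i)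
    (h : ∀ s : Finset ι, piW GG (Limits.Sigma.map (fun i : s => f i))) :
    piW GG (Limits.Sigma.map f) := by
  rw [piW_iff]
  intro A hA
  have hret : ∀ (s : Finset ι) (X : ι → M) (x : PiM A (∐ (fun i : s => X i))),
      mapM A (sigmaRet s X) (mapM A (sigmaSub s X) x) = x := by
    intro s X x
    rw [← mapM_comp, sigmaSub_sigmaRet, mapM_id]
  constructor
  · intro x x' hx
    obtain ⟨s, y, rfl⟩ := IsTest.exists_factor GG hA X x
    obtain ⟨s', y', rfl⟩ := IsTest.exists_factor GG hA X x'
    -- enlarge both to the union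
    classical
    have key : ∀ (s t : Finset ι) (hst : s ⊆ t) (y : PiM A (∐ (fun i : s => X i))),
        ∃ z : PiM A (∐ (fun i : t => X i)), mapM A (sigmaSub t X) z = mapM A (sigmaSub s X) y := by
      intro s t hst y
      refine ⟨mapM A (Sigma.desc (fun i : s => Sigma.ι (fun i : t => X i) ⟨i.1, hst i.2⟩)) y, ?_⟩
      rw [← mapM_comp]
      congr 2
      apply Sigma.hom_ext
      rintro ⟨i, hi⟩
      simp only [sigmaSub, Sigma.ι_desc_assoc, Sigma.ι_desc]
    obtain ⟨z, hz⟩ := key s (s ∪ s') Finset.subset_union_left y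
    obtain ⟨z', hz'⟩ := key s' (s ∪ s') Finset.subset_union_right y'
    rw [← hz, ← hz'] at hx ⊢
    congr 1
    apply ((piW_iff _).1 (h (s ∪ s')) A hA).1
    have e := congrArg (mapM A (sigmaRet (s ∪ s') Y)) hx
    rw [← mapM_comp, ← mapM_comp, ← mapM_comp, ← mapM_comp, ← sigmaRet_map,
      ← Category.assoc, sigmaSub_sigmaRet, Category.id_comp] at e
    exact e
  · intro y
    obtain ⟨s, y, rfl⟩ := IsTest.exists_factor GG hA Y y
    obtain ⟨x, rfl⟩ := ((piW_iff _).1 (h s) A hA).2 y
    refine ⟨mapM A (sigmaSub s X) x, ?_⟩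
    rw [← mapM_comp, ← mapM_comp, sigmaSub_map]

/-- Coproducts of stable equivalences are stable equivalences, if this holds for binary
coproducts. -/
theorem piW_sigma_of_binary [HasBinaryCoproducts M]
    (hb : ∀ {X Y X' Y' : M} (f : X ⟶ Y) (f' : X' ⟶ Y'), piW GG f → piW GG f' →
      piW GG (coprod.map f f'))
    {ι : Type} {X Y : ι → M} (f : ∀ i, X i ⟶ Y i) (h : ∀ i, piW GG (f i)) :
    piW GG (Limits.Sigma.map f) := by
  apply piW_sigma_of_finset
  intro s
  exact sigma_map_of_finite (piW GG) (fun f _ => piW_of_isIso f)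
    (fun f g hf hg => (piW GG).comp_mem f g hf hg) hb s _ _ _ (fun i => h i)

end

end StabInput

end Vale.Agent.P251.H.GS
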