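import Vale.Agent.P251CI.Gen
import Vale.Agent.P241GS.Wst

/-!
# P241G (copy of `P251CI/Gen` for a weaker input class): stable equivalences by representatives
-/

open CategoryTheory Category MonoidalCategory Limits

namespace Vale.Agent.P251.H.GS

open Vale.Agent.P251.G Vale.Agent.P251.G.LC
open Vale.Agent.P251CI (S0 I0 W_iff)

universe v u

namespace StabInput

variable {M : Type u} [Category.{v} M] [MonoidalCategory M] [SymmetricCategory M]
    [MonoidalClosed M] [HasZeroMorphisms M] [HasColimitsOfSize.{0, 0} M] [StabInput M]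

/-- `U ⊗ (U ⊗ ⋯ ⊗ A)` -/
abbrev pwM (k : ℕ) (A : M) : M := ((stab M).coPt.pw k ((HM.proj M).obj A)).obj

/-- the augmentation `U ⊗ (U ⊗ ⋯ ⊗ A) ⟶ A` -/
def tkM : (k : ℕ) → (A : M) → (pwM k A ⟶ A)
  | 0, A => 𝟙 A
  | k + 1, A => (lamU M ▷ pwM k A ≫ (λ_ (pwM k A)).hom) ≫ tkM k A

theorem proj_tkM (k : ℕ) (A : M) :
    (HM.proj M).map (tkM k A) = (stab M).coPt.tk k ((HM.proj M).obj A) := by
  induction k with
  | zero => exact ((stab M).coPt.tk_zero _).symm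
  | succ k ih =>
    rw [CoPt.tk_succ, ← ih]
    rfl

/-- the surjectivity clause in `M` -/
def SM {X Y : M} (f : X ⟶ Y) (A : M) : Prop :=
  ∀ y : A ⟶ Y, ∃ (k : ℕ) (x : pwM k A ⟶ X), MHtpy (x ≫ f) (tkM k A ≫ y)

/-- the injectivity clause in `M` -/
def IM {X Y : M} (f : X ⟶ Y) (A : M) : Prop :=
  ∀ x x' : A ⟶ X, MHtpy (x ≫ f) (x' ≫ f) → ∃ k : ℕ, MHtpy (tkM k A ≫ x) (tkM k A ≫ x')

theorem S0_iff {X Y : M} (f : X ⟶ Y) (A : M) :
    S0 (stab M).coPt ((HM.proj M).map f) ((HM.proj M).obj A) ↔ SM f A := by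
  constructor
  · intro h y
    obtain ⟨k, x, hx⟩ := h ((HM.proj M).map y)
    obtain ⟨x, rfl⟩ := HM.proj_map_surjective x
    rw [← proj_tkM] at hx
    exact ⟨k, x, (HM.proj_map_eq_iff _ _).1 hx⟩
  · intro h y
    obtain ⟨y, rfl⟩ := HM.proj_map_surjective y
    obtain ⟨k, x, hx⟩ := h y
    refine ⟨k, (HM.proj M).map x, ?_⟩
    rw [← proj_tkM]
    exact HM.sound hx

theorem I0_iff {X Y : M} (f : X ⟶ Y) (A : M) :
    I0 (stab M).coPt ((HM.proj M).map f) ((HM.proj M).obj A) ↔ IM f A := by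
  constructor
  · intro h x x' e
    obtain ⟨k, hk⟩ := h ((HM.proj M).map x) ((HM.proj M).map x') (HM.sound e)
    rw [← proj_tkM] at hk
    exact ⟨k, (HM.proj_map_eq_iff _ _).1 hk⟩
  · intro h x x' e
    obtain ⟨x, rfl⟩ := HM.proj_map_surjective x
    obtain ⟨x', rfl⟩ := HM.proj_map_surjective x'
    obtain ⟨k, hk⟩ := h x x' ((HM.proj_map_eq_iff _ _).1 e)
    refine ⟨k, ?_⟩
    rw [← proj_tkM]
    exact HM.sound hk

/-- Stable equivalences, tested on maps out of the test objects. -/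
theorem piW_iff_SM (GG : ObjectProperty M) [IsTest GG] {X Y : M} (f : X ⟶ Y) :
    piW GG f ↔ ∀ A, GG A → SM f A ∧ IM f A := by
  refine (W_iff (stab M).coPt (fun A => GG A.obj) (fun A hA => IsTest.U_tensor GG hA)
    ((HM.proj M).map f)).trans ⟨fun h A hA => ?_, fun h A hA => ?_⟩
  · exact ⟨(S0_iff f A).1 (h ⟨A⟩ hA).1, (I0_iff f A).1 (h ⟨A⟩ hA).2⟩
  · exact ⟨(S0_iff f A.obj).2 (h _ hA).1, (I0_iff f A.obj).2 (h _ hA).2⟩

theorem exists_pwM_iso {A B : M} (e : A ≅ B) (k : ℕ) :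
    ∃ φ : pwM k A ≅ pwM k B, φ.hom ≫ tkM k B = tkM k A ≫ e.hom := by
  induction k with
  | zero => exact ⟨e, (Category.comp_id _).trans (Category.id_comp _).symm⟩
  | succ k ih =>
    obtain ⟨φ, hφ⟩ := ih
    refine ⟨whiskerLeftIso (U M) φ, ?_⟩
    change U M ◁ φ.hom ≫ (lamU M ▷ pwM k B ≫ (λ_ (pwM k B)).hom) ≫ tkM k B =
      ((lamU M ▷ pwM k A ≫ (λ_ (pwM k A)).hom) ≫ tkM k A) ≫ e.hom
    simp only [Category.assoc]
    rw [whisker_exchange_assoc, leftUnitor_naturality_assoc, hφ]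

theorem SM_of_iso {A B X Y : M} {f : X ⟶ Y} (e : A ≅ B) (h : SM f B) : SM f A := by
  intro y
  obtain ⟨k, x, hx⟩ := h (e.inv ≫ y)
  obtain ⟨φ, hφ⟩ := exists_pwM_iso e k
  refine ⟨k, φ.hom ≫ x, ?_⟩
  have h1 := hx.comp_left φ.hom
  rw [← Category.assoc φ.hom (tkM k B), hφ, Category.assoc, Iso.hom_inv_id_assoc,
    ← Category.assoc] at h1
  exact h1

theorem IM_of_iso {A B X Y : M} {f : X ⟶ Y} (e : A ≅ B) (h : IM f B) : IM f A := by
  intro x x' hx
  obtain ⟨k, hk⟩ := h (e.inv ≫ x) (e.inv ≫ x') (by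
    rw [Category.assoc, Category.assoc]
    exact hx.comp_left e.inv)
  obtain ⟨φ, hφ⟩ := exists_pwM_iso e k
  refine ⟨k, ?_⟩
  have h1 := hk.comp_left φ.hom
  rw [← Category.assoc φ.hom, ← Category.assoc φ.hom, hφ, Category.assoc, Category.assoc,
    Iso.hom_inv_id_assoc, Iso.hom_inv_id_assoc] at h1
  exact h1

theorem piW_tkM (GG : ObjectProperty M) (k : ℕ) (A : M) : piW GG (tkM k A) := by
  induction k with
  | zero => exact piW_of_isIso (𝟙 A)
  | succ k ih => exact (piW GG).comp_mem _ _ (piW_lam _) ih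

/-- the stable class of a morphism `U^k ⊗ A ⟶ X` -/
def clM {A X : M} (k : ℕ) (x : pwM k A ⟶ X) : PiM A X :=
  (stab M).coPt.cl k ((HM.proj M).map x)

theorem clM_surj {A X : M} (z : PiM A X) : ∃ (k : ℕ) (x : pwM k A ⟶ X), clM k x = z := by
  obtain ⟨k, x, rfl⟩ := CoPt.cl_surj z
  obtain ⟨x, rfl⟩ := HM.proj_map_surjective x
  exact ⟨k, x, rfl⟩

theorem mapM_clM {A X Y : M} (k : ℕ) (x : pwM k A ⟶ X) (f : X ⟶ Y) :
    mapM A f (clM k x) = clM k (x ≫ f) := rfl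

/-- objects whose stable classes invert the stable equivalences -/
def Src (GG : ObjectProperty M) (A : M) : Prop :=
  ∀ ⦃X Y : M⦄ (f : X ⟶ Y), piW GG f → Function.Bijective (mapM A f)

theorem Src.of_test {GG : ObjectProperty M} {A : M} (h : GG A) : Src GG A :=
  fun _ _ f hf => (piW_iff f).1 hf A h

end StabInput

end Vale.Agent.P251.H.GS
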