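import Vale.Agent.P251.H.HCof
import Vale.Agent.P241GS.Naive

/-!
# P241G (copy of P251, part H, for a weaker input class): h-cofibrations in a `StabInput` category

`HCof i`: the homotopy extension property of `i : A ⟶ B` in `M`.
`Ext i k`: for `i : A ⟶ B`, `k : J ⟶ Q`, the pushout product `i □ k` is a split monomorphism
(formulated without the pushout).  `HCof i ↔ Ext i (0 ⟶ I)`.
-/

open CategoryTheory MonoidalCategory Limits

namespace Vale.Agent.P251.H.GS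

open Vale.Agent.P251.G Vale.Agent.P251.G.LC

universe v u

namespace StabInput

variable {M : Type u} [Category.{v} M] [MonoidalCategory M] [SymmetricCategory M]
    [MonoidalClosed M] [HasZeroMorphisms M] [HasColimitsOfSize.{0, 0} M] [StabInput M]

/-- the homotopy extension property -/
def HCof {A B : M} (i : A ⟶ B) : Prop :=
  ∀ (Z : M) (f : B ⟶ Z) (H : A ⊗ I M ⟶ Z), inc 0 A ≫ H = i ≫ f →
    ∃ K : B ⊗ I M ⟶ Z, inc 0 B ≫ K = f ∧ i ▷ I M ≫ K = H

theorem hCof_iff_ext {A B : M} (i : A ⟶ B) : HCof i ↔ Ext i (pt 0 : 𝟙_ M ⟶ I M) := by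
  constructor
  · intro h Z f H e
    obtain ⟨K, h1, h2⟩ := h Z ((ρ_ B).inv ≫ f) H (by
      rw [inc_def, Category.assoc, ← e, rightUnitor_inv_naturality_assoc])
    refine ⟨K, ?_, h2⟩
    rw [inc_def, Category.assoc] at h1
    exact (cancel_epi _).mp h1
  · intro h Z f H e
    obtain ⟨K, h1, h2⟩ := h Z ((ρ_ B).hom ≫ f) H (by
      rw [rightUnitor_naturality_assoc, ← e, inc_def]
      simp)
    refine ⟨K, ?_, h2⟩
    rw [inc_def, Category.assoc, h1]
    simp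

namespace HCof

variable {A B C : M} {i : A ⟶ B}

theorem ext (h : HCof i) : Ext i (pt 0 : 𝟙_ M ⟶ I M) := (hCof_iff_ext i).mp h

theorem of_isIso (i : A ⟶ B) [IsIso i] : HCof i := (hCof_iff_ext i).mpr (Ext.of_isIso i _)

theorem comp {i' : B ⟶ C} (h : HCof i) (h' : HCof i') : HCof (i ≫ i') :=
  (hCof_iff_ext _).mpr (h.ext.comp h'.ext)

theorem of_isZero (hA : IsZero A) (i : A ⟶ B) : HCof i := by
  refine (hCof_iff_ext _).mpr (Ext.of_isZero hA ⟨(J M).map (ofCompact (X := II) (Y := 𝟙_ LC)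
    (fun _ => ()) continuous_const) ≫ Functor.OplaxMonoidal.η (J M), ?_⟩)
  have h : point (X := II) (0 : unitInterval) ≫ (ofCompact (X := II) (Y := 𝟙_ LC)
    (fun _ => ()) continuous_const) = 𝟙 _ := by
    apply LC.hom_ext
    intro x
    rfl
  rw [Category.assoc, ← Functor.map_comp_assoc, h]
  simp

theorem whiskerLeft (h : HCof i) (C : M) : HCof (C ◁ i) :=
  (hCof_iff_ext _).mpr (h.ext.whiskerLeft C)

theorem whiskerRight (h : HCof i) (C : M) : HCof (i ▷ C) :=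
  (hCof_iff_ext _).mpr (h.ext.whiskerRight C)

theorem of_isPushout {X P : M} {f : A ⟶ X} {g : B ⟶ P} {l : X ⟶ P} (h : IsPushout i f g l)
    (hi : HCof i) : HCof l :=
  (hCof_iff_ext _).mpr (hi.ext.of_isPushout h)

theorem sigma {ι : Type} {A B : ι → M} (i : ∀ x, A x ⟶ B x)
    (h : ∀ x, HCof (i x)) : HCof (Limits.Sigma.map i) :=
  (hCof_iff_ext _).mpr (Ext.sigma i (fun x => (h x).ext))

theorem congr_iso {A' B' : M} {i' : A' ⟶ B'} (h : HCof i') (a : A ≅ A') (b : B ≅ B')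
    (e : a.hom ≫ i' = i ≫ b.hom) : HCof i :=
  (hCof_iff_ext _).mpr (h.ext.congr_iso a b e)

theorem of_retract {A' B' : M} {i' : A' ⟶ B'} (h : HCof i') (a₁ : A ⟶ A') (a₂ : B ⟶ B')
    (b₁ : A' ⟶ A) (b₂ : B' ⟶ B) (ha : a₁ ≫ i' = i ≫ a₂) (hb : b₁ ≫ i = i' ≫ b₂)
    (h₁ : a₁ ≫ b₁ = 𝟙 A) (h₂ : a₂ ≫ b₂ = 𝟙 B) : HCof i :=
  (hCof_iff_ext _).mpr (h.ext.of_retract_left a₁ a₂ b₁ b₂ ha hb h₁ h₂)

end HCof

end StabInput

end Vale.Agent.P251.H.GS
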