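import Vale.Agent.P251.H.Grp
import Vale.Agent.P241GS.HM
import Vale.Agent.P241GS.HCofCone

/-!
# P241G (copy of P251, part H, for a weaker input class): the cogroup structure of the circle

For `f g : B ⊗ S ⟶ Z` in a `StabInput` category, `madd f g` is the concatenation.  Up to homotopy
this is a group structure, natural in `B` and `Z`; it is commutative for `B = B' ⊗ S`.
-/

open CategoryTheory MonoidalCategory Limits Topology OnePoint
open scoped ZeroObject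

namespace Vale.Agent.P251.H.GS

open Vale.Agent.P251.G Vale.Agent.P251.G.LC Vale.Agent.P251.H.LP

universe v u

namespace StabInput

variable {M : Type u} [Category.{v} M] [MonoidalCategory M] [SymmetricCategory M]
    [MonoidalClosed M] [HasZeroMorphisms M] [HasColimitsOfSize.{0, 0} M] [StabInput M]

theorem injective_empty {X : LC} (f : LC.of Empty ⟶ X) : Function.Injective (app f) := by
  intro x y _
  rw [eq_infty_empty x, eq_infty_empty y]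

theorem isPushout_tsum (B : M) (A C : LC) :
    IsPushout (B ◁ (J M).map (0 : LC.of Empty ⟶ A)) (B ◁ (J M).map (0 : LC.of Empty ⟶ C))
      (B ◁ (J M).map (sumInl A C)) (B ◁ (J M).map (sumInr A C)) :=
  isPushout_tensor B (injective_empty _) (isPushout_sum A C LC.isZero_empty 0 0)

/-- the morphism out of `B ⊗ j (A ⊔ C)` -/
noncomputable def tdesc {B Z : M} {A C : LC} (f : B ⊗ (J M).obj A ⟶ Z)
    (g : B ⊗ (J M).obj C ⟶ Z) : B ⊗ (J M).obj (sum A C) ⟶ Z :=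
  (isPushout_tsum B A C).desc f g
    ((isZero_tensor_left (isZero_empty (M := M)) B).eq_of_src _ _)

@[reassoc (attr := simp)]
theorem tinl_desc {B Z : M} {A C : LC} (f : B ⊗ (J M).obj A ⟶ Z) (g : B ⊗ (J M).obj C ⟶ Z) :
    B ◁ (J M).map (sumInl A C) ≫ tdesc f g = f := IsPushout.inl_desc _ _ _ _

@[reassoc (attr := simp)]
theorem tinr_desc {B Z : M} {A C : LC} (f : B ⊗ (J M).obj A ⟶ Z) (g : B ⊗ (J M).obj C ⟶ Z) :
    B ◁ (J M).map (sumInr A C) ≫ tdesc f g = g := IsPushout.inr_desc _ _ _ _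

theorem tsum_hom_ext {B Z : M} {A C : LC} {f g : B ⊗ (J M).obj (sum A C) ⟶ Z}
    (h1 : B ◁ (J M).map (sumInl A C) ≫ f = B ◁ (J M).map (sumInl A C) ≫ g)
    (h2 : B ◁ (J M).map (sumInr A C) ≫ f = B ◁ (J M).map (sumInr A C) ≫ g) : f = g :=
  (isPushout_tsum B A C).hom_ext h1 h2

/-- The sum of two morphisms `B ⊗ S ⟶ Z`. -/
noncomputable def madd {B Z : M} (f g : B ⊗ S M ⟶ Z) : B ⊗ S M ⟶ Z :=
  B ◁ (J M).map LP.pinch ≫ tdesc f g

/-- The inverse of a morphism `B ⊗ S ⟶ Z`. -/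
noncomputable def mneg {B Z : M} (f : B ⊗ S M ⟶ Z) : B ⊗ S M ⟶ Z := B ◁ (J M).map neg ≫ f

theorem madd_comp {B Z Z' : M} (f g : B ⊗ S M ⟶ Z) (h : Z ⟶ Z') :
    madd f g ≫ h = madd (f ≫ h) (g ≫ h) := by
  unfold madd
  rw [Category.assoc]
  congr 1
  apply tsum_hom_ext
  · rw [tinl_desc_assoc, tinl_desc]
  · rw [tinr_desc_assoc, tinr_desc]

theorem mneg_comp {B Z Z' : M} (f : B ⊗ S M ⟶ Z) (h : Z ⟶ Z') :
    mneg f ≫ h = mneg (f ≫ h) := Category.assoc _ _ _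

theorem whiskerRight_madd {B B' Z : M} (b : B ⟶ B') (f g : B' ⊗ S M ⟶ Z) :
    b ▷ S M ≫ madd f g = madd (b ▷ S M ≫ f) (b ▷ S M ≫ g) := by
  unfold madd
  rw [← whisker_exchange_assoc]
  congr 1
  apply tsum_hom_ext
  · rw [tinl_desc, whisker_exchange_assoc, tinl_desc]
  · rw [tinr_desc, whisker_exchange_assoc, tinr_desc]

theorem whiskerRight_mneg {B B' Z : M} (b : B ⟶ B') (f : B' ⊗ S M ⟶ Z) :
    b ▷ S M ≫ mneg f = mneg (b ▷ S M ≫ f) := by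
  unfold mneg
  rw [← whisker_exchange_assoc]

/-- Universal formulas. -/
theorem madd_map {B Z : M} {T : LC} (u w : RR ⟶ T) (φ : B ⊗ (J M).obj T ⟶ Z) :
    madd (B ◁ (J M).map u ≫ φ) (B ◁ (J M).map w ≫ φ) = B ◁ (J M).map (cat u w) ≫ φ := by
  rw [← pinch_desc u w, Functor.map_comp, MonoidalCategory.whiskerLeft_comp, Category.assoc]
  unfold madd
  congr 1
  apply tsum_hom_ext
  · rw [tinl_desc, ← MonoidalCategory.whiskerLeft_comp_assoc, ← Functor.map_comp, sumInl_desc]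
  · rw [tinr_desc, ← MonoidalCategory.whiskerLeft_comp_assoc, ← Functor.map_comp, sumInr_desc]

theorem mneg_map {B Z : M} {T : LC} (u : RR ⟶ T) (φ : B ⊗ (J M).obj T ⟶ Z) :
    mneg (B ◁ (J M).map u ≫ φ) = B ◁ (J M).map (rev u) ≫ φ := by
  rw [← neg_comp, Functor.map_comp, MonoidalCategory.whiskerLeft_comp, Category.assoc]
  rfl

theorem homotopic_map_comp {B Z : M} {A T : LC} {u w : A ⟶ T} (h : Homotopic u w)
    (φ : B ⊗ (J M).obj T ⟶ Z) : MHtpy (B ◁ (J M).map u ≫ φ) (B ◁ (J M).map w ≫ φ) :=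
  ((MHtpy.map h).whiskerLeft B).comp_right φ

theorem map_id_comp {B Z : M} {A : LC} (f : B ⊗ (J M).obj A ⟶ Z) :
    B ◁ (J M).map (𝟙 A) ≫ f = f := by
  rw [CategoryTheory.Functor.map_id, MonoidalCategory.whiskerLeft_id, Category.id_comp]

theorem map_zero_comp {B Z : M} {A T : LC} (f : B ⊗ (J M).obj T ⟶ Z) :
    B ◁ (J M).map (0 : A ⟶ T) ≫ f = 0 := by
  rw [J_map_zero, whiskerLeft_zero', zero_comp]

theorem zero_madd {B Z : M} (f : B ⊗ S M ⟶ Z) : MHtpy (madd 0 f) f := by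
  have h : madd 0 f = B ◁ (J M).map (cat 0 (𝟙 RR)) ≫ f := by
    rw [← madd_map, map_id_comp, map_zero_comp]
  have h' : MHtpy (B ◁ (J M).map (cat 0 (𝟙 RR)) ≫ f) (B ◁ (J M).map (𝟙 RR) ≫ f) :=
    homotopic_map_comp (zero_cat _) f
  rwa [← h, map_id_comp] at h'

theorem madd_zero {B Z : M} (f : B ⊗ S M ⟶ Z) : MHtpy (madd f 0) f := by
  have h : madd f 0 = B ◁ (J M).map (cat (𝟙 RR) 0) ≫ f := by
    rw [← madd_map, map_id_comp, map_zero_comp]
  have h' : MHtpy (B ◁ (J M).map (cat (𝟙 RR) 0) ≫ f) (B ◁ (J M).map (𝟙 RR) ≫ f) :=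
    homotopic_map_comp (cat_zero _) f
  rwa [← h, map_id_comp] at h'

theorem mneg_madd {B Z : M} (f : B ⊗ S M ⟶ Z) : MHtpy (madd (mneg f) f) 0 := by
  have h : madd (mneg f) f = B ◁ (J M).map (cat (rev (𝟙 RR)) (𝟙 RR)) ≫ f := by
    rw [← madd_map, ← mneg_map, map_id_comp]
  have h' : MHtpy (B ◁ (J M).map (cat (rev (𝟙 RR)) (𝟙 RR)) ≫ f)
      (B ◁ (J M).map (0 : RR ⟶ RR) ≫ f) :=
    homotopic_map_comp (rev_cat _) f
  rwa [← h, map_zero_comp] at h'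

theorem madd_assoc {B Z : M} (f g h : B ⊗ S M ⟶ Z) :
    MHtpy (madd (madd f g) h) (madd f (madd g h)) := by
  let φ : B ⊗ (J M).obj (sum (sum RR RR) RR) ⟶ Z := tdesc (tdesc f g) h
  let a : RR ⟶ sum (sum RR RR) RR := sumInl RR RR ≫ sumInl (sum RR RR) RR
  let b : RR ⟶ sum (sum RR RR) RR := sumInr RR RR ≫ sumInl (sum RR RR) RR
  let c : RR ⟶ sum (sum RR RR) RR := sumInr (sum RR RR) RR
  have ha : B ◁ (J M).map a ≫ φ = f := by
    change B ◁ (J M).map (sumInl RR RR ≫ sumInl (sum RR RR) RR) ≫ φ = f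
    rw [Functor.map_comp, MonoidalCategory.whiskerLeft_comp, Category.assoc, tinl_desc, tinl_desc]
  have hb : B ◁ (J M).map b ≫ φ = g := by
    change B ◁ (J M).map (sumInr RR RR ≫ sumInl (sum RR RR) RR) ≫ φ = g
    rw [Functor.map_comp, MonoidalCategory.whiskerLeft_comp, Category.assoc, tinl_desc, tinr_desc]
  have hc : B ◁ (J M).map c ≫ φ = h := tinr_desc _ _
  have h1 := homotopic_map_comp (M := M) (B := B) (cat_assoc a b c) φ
  rwa [← madd_map, ← madd_map, ha, hb, hc, ← madd_map, ← madd_map, ha, hb, hc] at h1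

/-- the isomorphism `(B ⊗ S) ⊗ I ≅ (B ⊗ I) ⊗ S` -/
def swapI (B S' : M) : (B ⊗ S') ⊗ I M ≅ (B ⊗ I M) ⊗ S' :=
  α_ B S' (I M) ≪≫ whiskerLeftIso B (β_ S' (I M)) ≪≫ (α_ B (I M) S').symm

theorem inc_swapI (t : unitInterval) (B S' : M) :
    inc t (B ⊗ S') ≫ (swapI B S').hom = inc t B ▷ S' := by
  change inc t (B ⊗ S') ≫ (α_ B S' (I M)).hom ≫ B ◁ (β_ S' (I M)).hom ≫ (α_ B (I M) S').inv = _
  have h : (inc t S' : S' ⟶ S' ⊗ I M) ≫ (β_ S' (I M)).hom = (λ_ S').inv ≫ pt t ▷ S' := by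
    rw [inc_def, Category.assoc, BraidedCategory.braiding_naturality_right,
      rightUnitor_inv_braiding_assoc]
  rw [← Category.assoc, inc_tensor, ← MonoidalCategory.whiskerLeft_comp_assoc, h, inc_def]
  simp

theorem MHtpy.madd {B Z : M} {f f' g g' : B ⊗ S M ⟶ Z} (hf : MHtpy f f') (hg : MHtpy g g') :
    MHtpy (madd f g) (madd f' g') := by
  obtain ⟨F, F0, F1⟩ := hf
  obtain ⟨G, G0, G1⟩ := hg
  have key : ∀ (t : unitInterval) (K : (B ⊗ S M) ⊗ I M ⟶ Z),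
      inc t B ▷ S M ≫ (swapI B (S M)).inv ≫ K = inc t (B ⊗ S M) ≫ K := by
    intro t K
    rw [← inc_swapI, Category.assoc, Iso.hom_inv_id_assoc]
  refine ⟨(swapI B (S M)).hom ≫
    StabInput.madd ((swapI B (S M)).inv ≫ F) ((swapI B (S M)).inv ≫ G), ?_, ?_⟩
  · have := inc_swapI (M := M) 0 B (S M)
    rw [← Category.assoc, this, whiskerRight_madd, key, key, F0, G0]
  · have := inc_swapI (M := M) 1 B (S M)
    rw [← Category.assoc, this, whiskerRight_madd, key, key, F1, G1]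

theorem MHtpy.mneg {B Z : M} {f f' : B ⊗ S M ⟶ Z} (hf : MHtpy f f') :
    MHtpy (mneg f) (mneg f') := hf.comp_left _

/-! ### Eckmann–Hilton -/

theorem isPushout_tsum₂ (B : M) (A C : LC) (W : M) :
    IsPushout ((B ◁ (J M).map (0 : LC.of Empty ⟶ A)) ▷ W)
      ((B ◁ (J M).map (0 : LC.of Empty ⟶ C)) ▷ W)
      ((B ◁ (J M).map (sumInl A C)) ▷ W) ((B ◁ (J M).map (sumInr A C)) ▷ W) :=
  StabInput.isPushout_whiskerRight W (isPushout_tsum B A C)

/-- the morphism out of `(B ⊗ j (A ⊔ C)) ⊗ W` -/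
noncomputable def tdesc₂ {B W Z : M} {A C : LC} (f : (B ⊗ (J M).obj A) ⊗ W ⟶ Z)
    (g : (B ⊗ (J M).obj C) ⊗ W ⟶ Z) : (B ⊗ (J M).obj (sum A C)) ⊗ W ⟶ Z :=
  (isPushout_tsum₂ B A C W).desc f g
    ((isZero_tensor_right (isZero_tensor_left (isZero_empty (M := M)) B) W).eq_of_src _ _)

@[reassoc (attr := simp)]
theorem tinl_desc₂ {B W Z : M} {A C : LC} (f : (B ⊗ (J M).obj A) ⊗ W ⟶ Z)
    (g : (B ⊗ (J M).obj C) ⊗ W ⟶ Z) :
    (B ◁ (J M).map (sumInl A C)) ▷ W ≫ tdesc₂ f g = f := IsPushout.inl_desc _ _ _ _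

@[reassoc (attr := simp)]
theorem tinr_desc₂ {B W Z : M} {A C : LC} (f : (B ⊗ (J M).obj A) ⊗ W ⟶ Z)
    (g : (B ⊗ (J M).obj C) ⊗ W ⟶ Z) :
    (B ◁ (J M).map (sumInr A C)) ▷ W ≫ tdesc₂ f g = g := IsPushout.inr_desc _ _ _ _

theorem tsum_hom_ext₂ {B W Z : M} {A C : LC} {f g : (B ⊗ (J M).obj (sum A C)) ⊗ W ⟶ Z}
    (h1 : (B ◁ (J M).map (sumInl A C)) ▷ W ≫ f = (B ◁ (J M).map (sumInl A C)) ▷ W ≫ g)
    (h2 : (B ◁ (J M).map (sumInr A C)) ▷ W ≫ f = (B ◁ (J M).map (sumInr A C)) ▷ W ≫ g) : f = g :=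
  (isPushout_tsum₂ B A C W).hom_ext h1 h2

/-- The second sum on morphisms `(B ⊗ S) ⊗ W ⟶ Z`. -/
noncomputable def madd₂ {B W Z : M} (f g : (B ⊗ S M) ⊗ W ⟶ Z) : (B ⊗ S M) ⊗ W ⟶ Z :=
  (B ◁ (J M).map LP.pinch) ▷ W ≫ tdesc₂ f g

theorem madd₂_whiskerRight {B B' W Z : M} (a b : B ⊗ S M ⟶ B') (f : B' ⊗ W ⟶ Z) :
    madd₂ (a ▷ W ≫ f) (b ▷ W ≫ f) = madd a b ▷ W ≫ f := by
  unfold madd₂ madd
  rw [comp_whiskerRight, Category.assoc]
  congr 1
  apply tsum_hom_ext₂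
  · rw [tinl_desc₂, ← comp_whiskerRight_assoc, tinl_desc]
  · rw [tinr_desc₂, ← comp_whiskerRight_assoc, tinr_desc]

theorem zero_madd₂ {B W Z : M} (f : (B ⊗ S M) ⊗ W ⟶ Z) : MHtpy (madd₂ 0 f) f := by
  have h : madd₂ 0 f = madd 0 (𝟙 (B ⊗ S M)) ▷ W ≫ f := by
    rw [← madd₂_whiskerRight, zero_whiskerRight', zero_comp, id_whiskerRight, Category.id_comp]
  have h' := ((zero_madd (𝟙 (B ⊗ S M))).whiskerRight W).comp_right f
  rwa [← h, id_whiskerRight, Category.id_comp] at h'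

theorem madd₂_zero {B W Z : M} (f : (B ⊗ S M) ⊗ W ⟶ Z) : MHtpy (madd₂ f 0) f := by
  have h : madd₂ f 0 = madd (𝟙 (B ⊗ S M)) 0 ▷ W ≫ f := by
    rw [← madd₂_whiskerRight, zero_whiskerRight', zero_comp, id_whiskerRight, Category.id_comp]
  have h' := ((madd_zero (𝟙 (B ⊗ S M))).whiskerRight W).comp_right f
  rwa [← h, id_whiskerRight, Category.id_comp] at h'

theorem madd_madd₂ {B Z : M} (a b c d : (B ⊗ S M) ⊗ S M ⟶ Z) :
    madd (madd₂ a b) (madd₂ c d) = madd₂ (madd a c) (madd b d) := by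
  have h : tdesc₂ (madd a c) (madd b d) = madd (tdesc₂ a b) (tdesc₂ c d) := by
    apply tsum_hom_ext₂
    · rw [tinl_desc₂, whiskerRight_madd, tinl_desc₂, tinl_desc₂]
    · rw [tinr_desc₂, whiskerRight_madd, tinr_desc₂, tinr_desc₂]
  unfold madd₂
  rw [h, whiskerRight_madd]

theorem madd₂_homotopy {B W Z : M} {f f' g g' : (B ⊗ S M) ⊗ W ⟶ Z} (hf : MHtpy f f')
    (hg : MHtpy g g') : MHtpy (madd₂ f g) (madd₂ f' g') := by
  obtain ⟨F, F0, F1⟩ := hf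
  obtain ⟨G, G0, G1⟩ := hg
  let e (B' : M) : (B' ⊗ W) ⊗ I M ≅ B' ⊗ (W ⊗ I M) := α_ B' W (I M)
  refine ⟨(e (B ⊗ S M)).hom ≫ madd₂ ((e (B ⊗ S M)).inv ≫ F) ((e (B ⊗ S M)).inv ≫ G), ?_, ?_⟩
  all_goals
    unfold madd₂
    rw [← Category.assoc, inc_tensor, whisker_exchange_assoc]
    congr 1
    apply tsum_hom_ext₂
  · rw [tinl_desc₂, ← whisker_exchange_assoc, tinl_desc₂, ← F0, ← inc_tensor]
    simp [e]
  · rw [tinr_desc₂, ← whisker_exchange_assoc, tinr_desc₂, ← G0, ← inc_tensor]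
    simp [e]
  · rw [tinl_desc₂, ← whisker_exchange_assoc, tinl_desc₂, ← F1, ← inc_tensor]
    simp [e]
  · rw [tinr_desc₂, ← whisker_exchange_assoc, tinr_desc₂, ← G1, ← inc_tensor]
    simp [e]

/-- The two sums agree up to homotopy and are commutative. -/
theorem madd_comm {B Z : M} (f g : (B ⊗ S M) ⊗ S M ⟶ Z) : MHtpy (madd f g) (madd g f) := by
  have h1 : MHtpy (madd f g) (madd₂ f g) := by
    have h : MHtpy (madd (madd₂ f 0) (madd₂ 0 g)) (madd f g) :=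
      MHtpy.madd (madd₂_zero f) (zero_madd₂ g)
    rw [madd_madd₂] at h
    exact h.symm.trans (madd₂_homotopy (madd_zero f) (zero_madd g))
  have h2 : MHtpy (madd g f) (madd₂ f g) := by
    have h : MHtpy (madd (madd₂ 0 g) (madd₂ f 0)) (madd g f) :=
      MHtpy.madd (zero_madd₂ g) (madd₂_zero f)
    rw [madd_madd₂] at h
    exact h.symm.trans (madd₂_homotopy (zero_madd f) (madd_zero g))
  exact h1.trans h2.symm

end StabInput

end Vale.Agent.P251.H.GS
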