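import Vale.Agent.P251.H.HCofJ
import Vale.Agent.P241GS.Naive

/-!
# P241G (copy of P251, part H, for a weaker input class): the image of a cofibration of spaces is an h-cofibration

`exists_ext_of_cofib`: for a cofibration `i` of `LC` the morphism `J i` of `M` has the homotopy
extension property for all objects of `M`.
-/

open CategoryTheory MonoidalCategory Limits Topology OnePoint

namespace Vale.Agent.P251.H.GS

open Vale.Agent.P251.G Vale.Agent.P251.G.LC

universe v u

namespace StabInput

variable {M : Type u} [Category.{v} M] [MonoidalCategory M] [SymmetricCategory M]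
    [MonoidalClosed M] [HasZeroMorphisms M] [HasColimitsOfSize.{0, 0} M] [StabInput M]

open Functor.LaxMonoidal Functor.OplaxMonoidal

@[reassoc]
theorem inc_μ (t : unitInterval) (X : LC) :
    inc t ((J M).obj X) ≫ μ (J M) X II = (J M).map (incl t X) := by
  rw [inc_def, Category.assoc, MonoidalCategory.whiskerLeft_comp, Category.assoc,
    Functor.LaxMonoidal.μ_natural_right, incl, Functor.map_comp,
    Functor.LaxMonoidal.right_unitality_inv_assoc]

@[reassoc]
theorem map_incl_δ (t : unitInterval) (X : LC) :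
    (J M).map (incl t X) ≫ δ (J M) X II = inc t ((J M).obj X) := by
  rw [← inc_μ, Category.assoc, Functor.Monoidal.μ_δ, Category.comp_id]

/-- The homotopy extension property of `J i` for a cofibration `i` of `LC`. -/
theorem exists_ext_of_cofib {A B : LC} {i : A ⟶ B} (hi : Cofib i) (Z : M)
    (f : (J M).obj B ⟶ Z) (H : (J M).obj A ⊗ I M ⟶ Z)
    (h : inc 0 ((J M).obj A) ≫ H = (J M).map i ≫ f) :
    ∃ K : (J M).obj B ⊗ I M ⟶ Z,
      inc 0 ((J M).obj B) ≫ K = f ∧ (J M).map i ▷ I M ≫ K = H := by
  obtain ⟨P, g, k, hP, -, -⟩ := exists_pushout (incl 0 A) i (injective_app_incl 0 A)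
  obtain ⟨r, hr0, hr1⟩ := hi P k g hP.w
  have hPM := StabInput.pushout (M := M) (incl 0 A) i g k (injective_app_incl 0 A) hP
  have hc : (J M).map (incl 0 A) ≫ δ (J M) A II ≫ H = (J M).map i ≫ f := by
    rw [map_incl_δ_assoc, h]
  refine ⟨μ (J M) B II ≫ (J M).map r ≫ hPM.desc (δ (J M) A II ≫ H) f hc, ?_, ?_⟩
  · rw [inc_μ_assoc, ← Functor.map_comp_assoc, hr0, hPM.inr_desc]
  · rw [Functor.LaxMonoidal.μ_natural_left_assoc, ← Functor.map_comp_assoc, hr1, hPM.inl_desc,
      Functor.Monoidal.μ_δ_assoc]

end StabInput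

end Vale.Agent.P251.H.GS
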