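import Vale.Agent.P251.H.CofM
import Vale.Agent.P241GS.Flat
import Vale.Agent.P241GS.HCofCyl

/-!
# P241G (copy of P251, part H, for a weaker input class): the cofibration categories `M` and `FlatCat W`

`GoodW W`: the properties of a class `W` of weak equivalences of `M` which are needed.
`cofCatM W`: `M` with the h-cofibrations and `W` is a cofibration category.
`FlatCat W`: the full subcategory of flat objects, with its structure of a cofibration category.
-/

open CategoryTheory MonoidalCategory Limits ZeroObject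

namespace Vale.Agent.P251.H.GS

open Vale.Agent.P251.G Vale.Agent.P251.G.LC

universe v u

namespace StabInput

variable {M : Type u} [Category.{v} M] [MonoidalCategory M] [SymmetricCategory M]
    [MonoidalClosed M] [HasZeroMorphisms M] [HasColimitsOfSize.{0, 0} M] [StabInput M]

open Functor.LaxMonoidal Functor.OplaxMonoidal

/-- the projection of the cylinder is a homotopy equivalence -/
theorem mHtpy_pr_inc (X : M) : MHtpy (pr X ≫ inc 0 X) (𝟙 (X ⊗ I M)) := by
  have h : MHtpy ((ptI : I M ⟶ 𝟙_ M) ≫ pt 0) (𝟙 (I M)) := by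
    refine (MHtpy.of_eq ?_).trans ((MHtpy.map homotopic_projII).trans
      (MHtpy.of_eq ((J M).map_id _)))
    rw [Category.assoc, Functor.Monoidal.η_ε_assoc, ← Functor.map_comp]
  refine (MHtpy.of_eq ?_).trans ((h.whiskerLeft X).trans (MHtpy.of_eq (by simp)))
  rw [pr, inc_def, Category.assoc, Iso.hom_inv_id_assoc, ← MonoidalCategory.whiskerLeft_comp]

variable (M) in
/-- the h-cofibrations as a morphism property -/
def hcof : MorphismProperty M := fun _ _ i => HCof i

/-- The properties of a class `W` of weak equivalences of `M` which are needed. -/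
class GoodW (W : MorphismProperty M) : Prop where
  isIso {X Y : M} (f : X ⟶ Y) [IsIso f] : W f
  comp {X Y Z : M} (f : X ⟶ Y) (g : Y ⟶ Z) : W f → W g → W (f ≫ g)
  left {X Y Z : M} (f : X ⟶ Y) (g : Y ⟶ Z) : W f → W (f ≫ g) → W g
  right {X Y Z : M} (f : X ⟶ Y) (g : Y ⟶ Z) : W g → W (f ≫ g) → W f
  htpy {X Y : M} {f g : X ⟶ Y} : MHtpy f g → W f → W g
  hequiv {X Y : M} (f : X ⟶ Y) (g : Y ⟶ X) :
    MHtpy (f ≫ g) (𝟙 X) → MHtpy (g ≫ f) (𝟙 Y) → W f
  sigma {ι : Type} {X Y : ι → M} (f : ∀ i, X i ⟶ Y i) : (∀ i, W (f i)) →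
    W (Limits.Sigma.map f)
  tensorS {X Y : M} (f : X ⟶ Y) : W f → W (S M ◁ f)
  tensorL {X Y : M} (f : X ⟶ Y) : W f → W ((L : M) ◁ f)
  /-- 2 out of 3 for morphisms of cofibre sequences -/
  five {A B Q A' B' Q' : M} {i : A ⟶ B} {q : B ⟶ Q} {i' : A' ⟶ B'} {q' : B' ⟶ Q'}
    (hi : HCof i) (hq : IsCofibre i q) (hi' : HCof i') (hq' : IsCofibre i' q')
    (a : A ⟶ A') (b : B ⟶ B') (c : Q ⟶ Q') (w₁ : i ≫ b = a ≫ i') (w₂ : q ≫ c = b ≫ q') :
    (W a → W b → W c) ∧ (W b → W c → W a) ∧ (W a → W c → W b)

theorem flatInput (W : MorphismProperty M) [hW : GoodW W] : FlatInput W (hcof M) where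
  W_isIso f _ := hW.isIso f
  W_comp := hW.comp
  W_left := hW.left
  W_right := hW.right
  W_htpy := hW.htpy
  W_hequiv := hW.hequiv
  W_sigma := hW.sigma
  W_S := hW.tensorS
  W_L := hW.tensorL
  Cf_whiskerRight _ Z h := HCof.whiskerRight h Z
  Cf_pushout h hi := HCof.of_isPushout h hi
  Cf_isIso f _ := HCof.of_isIso f
  Cf_J _ hi := fun Z f H h => exists_ext_of_cofib hi Z f H h
  five := hW.five

/-- `M` with the h-cofibrations and the weak equivalences `W` is a cofibration category. -/
@[reducible] def cofCatM (W : MorphismProperty M) [hW : GoodW W] : CofCat M where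
  W := W
  Cof := hcof M
  W_of_isIso f _ := hW.isIso f
  Cof_of_isIso f _ := HCof.of_isIso f
  W_comp := hW.comp
  W_of_comp_left := hW.left
  W_of_comp_right := hW.right
  Cof_comp _ _ hf hg := HCof.comp hf hg
  Cof_zero hZ _ f := HCof.of_isZero hZ f
  hasPushout _ _ _ := inferInstance
  Cof_pushout h hi := HCof.of_isPushout h hi
  W_pushout h hi hi' := (flatInput W).W_pushout h hi hi'
  Cyl := tensorRight (I M)
  i₀ := { app := fun X => inc 0 X
          naturality := fun _ _ f => (inc_naturality 0 f).symm }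
  i₁ := { app := fun X => inc 1 X
          naturality := fun _ _ f => (inc_naturality 1 f).symm }
  π := { app := fun X => pr X
         naturality := fun _ _ f => pr_naturality f }
  i₀_π X := inc_pr 0 X
  i₁_π X := inc_pr 1 X
  W_π X := hW.hequiv (pr X) (inc 0 X) (mHtpy_pr_inc X) (MHtpy.of_eq (inc_pr 0 X))
  Cof_ends X := hCof_ends X
  Cof_pushoutProduct j a b d hj h ha hb := hCof_pushoutProduct j a b d hj h ha hb

instance (W : MorphismProperty M) [hW : GoodW W] : (Flat W).IsClosedUnderIsomorphisms :=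
  (flatInput W).isClosedUnderIsomorphisms

instance (W : MorphismProperty M) [hW : GoodW W] : (Flat W).ContainsZero :=
  ⟨⟨0, isZero_zero M, (flatInput W).flat_of_isZero (isZero_zero M)⟩⟩

theorem cofClosed_flat (W : MorphismProperty M) [hW : GoodW W] :
    @CofClosed M _ _ _ _ (cofCatM W) (Flat W) :=
  letI := cofCatM W
  { zero := fun hZ => (flatInput W).flat_of_isZero hZ
    cyl := fun hX => (flatInput W).flat_cyl hX
    pushout := fun h hi hA hB hX => (flatInput W).flat_pushout h hi hA hB hX }

end StabInput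

end Vale.Agent.P251.H.GS
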