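import Vale.Agent.P251.H.Five
import Vale.Agent.P241GS.Wst
import Vale.Agent.P241GS.HCofCone
import Vale.Agent.P241GS.CofM

/-!
# P241G (copy of P251, part H, for a weaker input class): the five lemma for stable equivalences

From the Puppe exactness of stable homotopy classes (`PuppeInput M`) we deduce: for every class of
test objects `GG`, the class `piW GG` satisfies `GoodW`.
-/

open CategoryTheory MonoidalCategory Limits ZeroObject

namespace Vale.Agent.P251.H.GS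

open Vale.Agent.P251.G Vale.Agent.P251.G.LC LP

universe v u

namespace StabInput

variable {M : Type u} [Category.{v} M] [MonoidalCategory M] [SymmetricCategory M]
    [MonoidalClosed M] [HasZeroMorphisms M] [HasColimitsOfSize.{0, 0} M] [StabInput M]

open Functor.LaxMonoidal Functor.OplaxMonoidal

/-- the class of the zero map -/
def pz (A X : M) : PiM A X := (stab M).coPt.cl 0 ((HM.proj M).map (0 : A ⟶ X))

theorem cl_zero (A X : M) (k : ℕ) :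
    (stab M).coPt.cl (A := (HM.proj M).obj A) (X := (HM.proj M).obj X) k
      (0 : (stab M).coPt.pw k ((HM.proj M).obj A) ⟶ (HM.proj M).obj X) = pz A X := by
  have h := CoPt.cl_tr (P := (stab M).coPt) (A := (HM.proj M).obj A) (X := (HM.proj M).obj X)
    (Nat.zero_le k) (0 : (stab M).coPt.pw 0 ((HM.proj M).obj A) ⟶ (HM.proj M).obj X)
  rw [comp_zero] at h
  exact h

theorem mapM_pz (A : M) {X Y : M} (f : X ⟶ Y) : mapM A f (pz A X) = pz A Y := by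
  refine (CoPt.map_cl _ _ _ _ _).trans ?_
  unfold pz
  rw [← Functor.map_comp, zero_comp]

theorem mapM_zero_pz (A : M) {X Y : M} (x : PiM A X) : mapM A (0 : X ⟶ Y) x = pz A Y := by
  obtain ⟨k, x, rfl⟩ := CoPt.cl_surj x
  refine (CoPt.map_cl _ _ _ _ _).trans ?_
  rw [HM.proj_map_zero, comp_zero, cl_zero]

theorem mapM_of_mHtpy_zero (A : M) {X Y : M} {f : X ⟶ Y} (hf : MHtpy f 0) (x : PiM A X) :
    mapM A f x = pz A Y := by
  rw [mapM_congr A hf, mapM_zero_pz]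

/-- exactness of stable homotopy classes at `Y`, for all first variables -/
def PiEx {X Y Z : M} (g : X ⟶ Y) (h : Y ⟶ Z) : Prop :=
  ∀ (A : M) (y : PiM A Y), mapM A h y = pz A Z → ∃ x, mapM A g x = y

/-- the collapse of the half line onto the circle -/
noncomputable abbrev collM : CI M ⟶ S M := (J M).map collHH

theorem ptHH_collM : (ptHH : 𝟙_ M ⟶ CI M) ≫ collM = 0 := by
  rw [Category.assoc, ← Functor.map_comp, zeroHH_collHH, J_map_zero, comp_zero]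

@[reassoc]
theorem coneBase_collM (X : M) : coneBase X ≫ X ◁ collM = 0 := by
  rw [coneBase_def, Category.assoc, ← MonoidalCategory.whiskerLeft_comp, ptHH_collM,
    whiskerLeft_zero', comp_zero]

theorem mHtpy_coneBase (X : M) : MHtpy (coneBase X) 0 :=
  ⟨cylCone X, inc_zero_cylCone X, inc_one_cylCone X⟩

theorem mHtpy_id_cone (X : M) : MHtpy (𝟙 (X ⊗ CI M)) 0 :=
  ⟨coneContr X, inc_zero_coneContr X, inc_one_coneContr X⟩

/-- The data of a mapping cone sequence `X ⟶ Y ⟶ C ⟶ X ⊗ S`. -/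
structure IsCone {X Y C : M} (f : X ⟶ Y) (k : X ⊗ CI M ⟶ C) (i : Y ⟶ C) (q : C ⟶ X ⊗ S M) :
    Prop where
  po : IsPushout (coneBase X) f k i
  kq : k ≫ q = X ◁ collM
  iq : i ≫ q = 0

namespace IsCone

variable {X Y C : M} {f : X ⟶ Y} {k : X ⊗ CI M ⟶ C} {i : Y ⟶ C} {q : C ⟶ X ⊗ S M}

variable (f) in
theorem exists_isCone : ∃ (C : M) (k : X ⊗ CI M ⟶ C) (i : Y ⟶ C) (q : C ⟶ X ⊗ S M),
    IsCone f k i q := by
  have h := IsPushout.of_hasPushout (coneBase X) f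
  have w : coneBase X ≫ X ◁ collM = f ≫ (0 : Y ⟶ X ⊗ S M) := by
    rw [coneBase_collM, comp_zero]
  exact ⟨_, _, _, h.desc (X ◁ collM) 0 w, h, h.inl_desc _ _ _, h.inr_desc _ _ _⟩

theorem comp₁ (h : IsCone f k i q) : MHtpy (f ≫ i) 0 := by
  rw [← h.po.w]
  exact ((mHtpy_coneBase X).comp_right k).trans (MHtpy.of_eq zero_comp)

theorem comp₃ (h : IsCone f k i q) : MHtpy (q ≫ f ▷ S M) 0 := by
  let u : C ⟶ Y ⊗ CI M := h.po.desc (f ▷ CI M) (coneBase Y) (coneBase_naturality f)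
  have hu : u ≫ Y ◁ collM = q ≫ f ▷ S M := by
    apply h.po.hom_ext
    · rw [h.po.inl_desc_assoc, reassoc_of% h.kq, whisker_exchange]
    · rw [h.po.inr_desc_assoc, coneBase_collM, reassoc_of% h.iq, zero_comp]
  rw [← hu]
  have h1 := ((mHtpy_id_cone Y).comp_right (Y ◁ collM)).trans (MHtpy.of_eq zero_comp)
  rw [Category.id_comp] at h1
  exact (MHtpy.comp_left u h1).trans (MHtpy.of_eq comp_zero)

end IsCone

/-- The group structure on stable homotopy classes and Puppe exactness. -/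
structure PuppeInput (M : Type u) [Category.{v} M] [MonoidalCategory M] [SymmetricCategory M]
    [MonoidalClosed M] [HasZeroMorphisms M] [HasColimitsOfSize.{0, 0} M] [StabInput M] where
  grp : ∀ A X : M, AddGroup (PiM A X)
  map_add : ∀ (A : M) {X Y : M} (f : X ⟶ Y) (x y : PiM A X),
    mapM A f (x + y) = mapM A f x + mapM A f y
  ex₁ {X Y C : M} {f : X ⟶ Y} {k : X ⊗ CI M ⟶ C} {i : Y ⟶ C} {q : C ⟶ X ⊗ S M} :
    IsCone f k i q → PiEx f i
  ex₂ {X Y C : M} {f : X ⟶ Y} {k : X ⊗ CI M ⟶ C} {i : Y ⟶ C} {q : C ⟶ X ⊗ S M} :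
    IsCone f k i q → PiEx i q
  ex₃ {X Y C : M} {f : X ⟶ Y} {k : X ⊗ CI M ⟶ C} {i : Y ⟶ C} {q : C ⟶ X ⊗ S M} :
    IsCone f k i q → PiEx q (f ▷ S M)

section shift

/-! ### exactness of the suspension of an exact sequence -/

/-- the natural map `L ⊗ (Y ⊗ S) ⟶ Y` -/
def unsusp (Y : M) : (L : M) ⊗ (Y ⊗ S M) ⟶ Y :=
  (L : M) ◁ (β_ Y (S M)).hom ≫ (α_ (L : M) (S M) Y).inv ≫ lamU M ▷ Y ≫ (λ_ Y).hom

@[reassoc]
theorem unsusp_naturality {X Y : M} (f : X ⟶ Y) :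
    (L : M) ◁ (f ▷ S M) ≫ unsusp Y = unsusp X ≫ f := by
  unfold unsusp
  rw [← MonoidalCategory.whiskerLeft_comp_assoc, BraidedCategory.braiding_naturality_left,
    MonoidalCategory.whiskerLeft_comp_assoc, associator_inv_naturality_right_assoc,
    whisker_exchange_assoc, leftUnitor_naturality]
  simp only [Category.assoc]

/-- `Pi A X ⟶ Pi (L ⊗ A) (L ⊗ X)` -/
def leftLPi (A X : M) (x : PiM A X) : PiM ((L : M) ⊗ A) ((L : M) ⊗ X) :=
  ((stab M).left (stab M).L).pi ((HM.proj M).obj A) ((HM.proj M).obj X) x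

theorem leftLPi_map (A : M) {X Y : M} (f : X ⟶ Y) (x : PiM A X) :
    leftLPi A Y (mapM A f x) = mapM ((L : M) ⊗ A) ((L : M) ◁ f) (leftLPi A X x) :=
  (stab M).left_pi_map (stab M).L ((HM.proj M).obj A) ((HM.proj M).map f) x

/-- `Pi A (Y ⊗ S) ⟶ Pi (L ⊗ A) Y` -/
def unsuspPi (A Y : M) (x : PiM A (Y ⊗ S M)) : PiM ((L : M) ⊗ A) Y :=
  mapM ((L : M) ⊗ A) (unsusp Y) (leftLPi A (Y ⊗ S M) x)

theorem unsuspPi_map (A : M) {X Y : M} (f : X ⟶ Y) (x : PiM A (X ⊗ S M)) :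
    unsuspPi A Y (mapM A (f ▷ S M) x) = mapM _ f (unsuspPi A X x) := by
  unfold unsuspPi
  rw [leftLPi_map, ← mapM_comp, unsusp_naturality, mapM_comp]

theorem bijective_unsuspPi (A Y : M) : Function.Bijective (unsuspPi A Y) := by
  have h1 := (stab M).bijective_left_L ((HM.proj M).obj A) ((HM.proj M).obj (Y ⊗ S M))
  have h2 : piW (fun _ => True) (unsusp Y) := by
    have h3 : piW (M := M) (fun _ => True) ((L : M) ◁ (β_ Y (S M)).hom) := piW_of_isIso _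
    have h4 : piW (M := M) (fun _ => True) (α_ (L : M) (S M) Y).inv := piW_of_isIso _
    have h5 : piW (M := M) (fun _ => True) (lamU M ▷ Y ≫ (λ_ Y).hom) := piW_lam Y
    exact (piW _).comp_mem _ _ h3 ((piW _).comp_mem _ _ h4 h5)
  exact (((piW_iff _).mp h2) ((L : M) ⊗ A) trivial).comp h1

theorem unsuspPi_pz (A Y : M) : unsuspPi A Y (pz A (Y ⊗ S M)) = pz _ Y := by
  have h : pz A (Y ⊗ S M) = mapM A ((0 : (0 : M) ⟶ Y) ▷ S M) (pz A ((0 : M) ⊗ S M)) := by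
    rw [mapM_pz]
  rw [h, unsuspPi_map, mapM_zero_pz]

theorem PiEx.tensorS {X Y Z : M} {g : X ⟶ Y} {h : Y ⟶ Z} (H : PiEx g h) :
    PiEx (g ▷ S M) (h ▷ S M) := by
  intro A y hy
  have h1 : mapM _ h (unsuspPi A Y y) = pz _ Z := by
    rw [← unsuspPi_map, hy, unsuspPi_pz]
  obtain ⟨x, hx⟩ := H _ _ h1
  obtain ⟨x', rfl⟩ := (bijective_unsuspPi A X).2 x
  refine ⟨x', (bijective_unsuspPi A Y).1 ?_⟩
  rw [unsuspPi_map, hx]

end shift

namespace PuppeInput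

variable (P : PuppeInput M)

/-- the induced homomorphism -/
def hom (A : M) {X Y : M} (f : X ⟶ Y) :
    letI := P.grp A X
    letI := P.grp A Y
    PiM A X →+ PiM A Y :=
  letI := P.grp A X
  letI := P.grp A Y
  AddMonoidHom.mk' (mapM A f) (P.map_add A f)

theorem zero_eq (A X : M) : letI := P.grp A X; (0 : PiM A X) = pz A X := by
  let _ := P.grp A X
  let _ := P.grp A (0 : M)
  have h0 : (0 : PiM A (0 : M)) = pz A (0 : M) := by
    obtain ⟨k, x, hx⟩ := CoPt.cl_surj (0 : PiM A (0 : M))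
    rw [← hx]
    obtain ⟨x, rfl⟩ := HM.proj_map_surjective x
    have : x = 0 := (isZero_zero M).eq_of_tgt _ _
    rw [this]
    exact cl_zero A _ k
  have h1 := (P.hom A (0 : (0 : M) ⟶ X)).map_zero
  change mapM A (0 : (0 : M) ⟶ X) (0 : PiM A (0 : M)) = 0 at h1
  rw [← h1, h0, mapM_pz]

theorem exact {X Y Z : M} {g : X ⟶ Y} {h : Y ⟶ Z} (H : PiEx g h) (H' : MHtpy (g ≫ h) 0) (A : M) :
    letI := P.grp A X
    letI := P.grp A Y
    letI := P.grp A Z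
    Function.Exact (P.hom A g) (P.hom A h) := by
  let _ := P.grp A X
  let _ := P.grp A Y
  let _ := P.grp A Z
  intro y
  constructor
  · intro hy
    change mapM A h y = 0 at hy
    rw [P.zero_eq A Z] at hy
    exact H A y hy
  · rintro ⟨x, rfl⟩
    change mapM A h (mapM A g x) = 0
    rw [P.zero_eq A Z, ← mapM_comp, mapM_of_mHtpy_zero A H']

include P in
/-- the five lemma for `piW` -/
theorem five_seq {GG : ObjectProperty M} {X₁ X₂ X₃ X₄ X₅ Y₁ Y₂ Y₃ Y₄ Y₅ : M}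
    {f₁ : X₁ ⟶ X₂} {f₂ : X₂ ⟶ X₃} {f₃ : X₃ ⟶ X₄} {f₄ : X₄ ⟶ X₅}
    {g₁ : Y₁ ⟶ Y₂} {g₂ : Y₂ ⟶ Y₃} {g₃ : Y₃ ⟶ Y₄} {g₄ : Y₄ ⟶ Y₅}
    (hf₁ : PiEx f₁ f₂) (hf₂ : PiEx f₂ f₃) (hf₃ : PiEx f₃ f₄)
    (hf₁' : MHtpy (f₁ ≫ f₂) 0) (hf₂' : MHtpy (f₂ ≫ f₃) 0) (hf₃' : MHtpy (f₃ ≫ f₄) 0)
    (hg₁ : PiEx g₁ g₂) (hg₂ : PiEx g₂ g₃) (hg₃ : PiEx g₃ g₄)
    (hg₁' : MHtpy (g₁ ≫ g₂) 0) (hg₂' : MHtpy (g₂ ≫ g₃) 0) (hg₃' : MHtpy (g₃ ≫ g₄) 0)
    (a₁ : X₁ ⟶ Y₁) (a₂ : X₂ ⟶ Y₂) (a₃ : X₃ ⟶ Y₃) (a₄ : X₄ ⟶ Y₄) (a₅ : X₅ ⟶ Y₅)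
    (w₁ : f₁ ≫ a₂ = a₁ ≫ g₁) (w₂ : f₂ ≫ a₃ = a₂ ≫ g₂) (w₃ : f₃ ≫ a₄ = a₃ ≫ g₃)
    (w₄ : f₄ ≫ a₅ = a₄ ≫ g₄) (h₁ : piW GG a₁) (h₂ : piW GG a₂) (h₄ : piW GG a₄)
    (h₅ : piW GG a₅) : piW GG a₃ := by
  rw [piW_iff] at h₁ h₂ h₄ h₅ ⊢
  intro A hA
  let _ := P.grp A
  have hc : ∀ {X Y X' Y' : M} (f : X ⟶ Y) (a' : Y ⟶ Y') (a : X ⟶ X') (g : X' ⟶ Y'),
      f ≫ a' = a ≫ g → (P.hom A g).comp (P.hom A a) = (P.hom A a').comp (P.hom A f) := by
    intro X Y X' Y' f a' a g w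
    ext x
    change mapM A g (mapM A a x) = mapM A a' (mapM A f x)
    rw [← mapM_comp, ← mapM_comp, w]
  exact AddMonoidHom.bijective_of_surjective_of_bijective_of_bijective_of_injective
    (P.hom A f₁) (P.hom A f₂) (P.hom A f₃) (P.hom A f₄)
    (P.hom A g₁) (P.hom A g₂) (P.hom A g₃) (P.hom A g₄)
    (P.hom A a₁) (P.hom A a₂) (P.hom A a₃) (P.hom A a₄) (P.hom A a₅)
    (hc _ _ _ _ w₁) (hc _ _ _ _ w₂) (hc _ _ _ _ w₃) (hc _ _ _ _ w₄)
    (P.exact hf₁ hf₁' A) (P.exact hf₂ hf₂' A) (P.exact hf₃ hf₃' A)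
    (P.exact hg₁ hg₁' A) (P.exact hg₂ hg₂' A) (P.exact hg₃ hg₃' A)
    (h₁ A hA).2 (h₂ A hA) (h₄ A hA) (h₅ A hA).1

include P in
/-- 2 out of 3 for morphisms of mapping cone sequences -/
theorem five_cone {GG : ObjectProperty M} [IsTest GG] {X Y C X' Y' C' : M} {f : X ⟶ Y}
    {k : X ⊗ CI M ⟶ C} {i : Y ⟶ C} {q : C ⟶ X ⊗ S M} {f' : X' ⟶ Y'}
    {k' : X' ⊗ CI M ⟶ C'} {i' : Y' ⟶ C'} {q' : C' ⟶ X' ⊗ S M}
    (h : IsCone f k i q) (h' : IsCone f' k' i' q') (a : X ⟶ X') (b : Y ⟶ Y') (c : C ⟶ C')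
    (w : f ≫ b = a ≫ f') (wk : k ≫ c = a ▷ CI M ≫ k') (wi : i ≫ c = b ≫ i') :
    (piW GG a → piW GG b → piW GG c) ∧ (piW GG b → piW GG c → piW GG a) ∧
      (piW GG a → piW GG c → piW GG b) := by
  have wq : q ≫ a ▷ S M = c ≫ q' := by
    apply h.po.hom_ext
    · rw [reassoc_of% h.kq, reassoc_of% wk, h'.kq, whisker_exchange]
    · rw [reassoc_of% h.iq, reassoc_of% wi, h'.iq, zero_comp, comp_zero]
  have hiq : MHtpy (i ≫ q) 0 := MHtpy.of_eq h.iq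
  have hiq' : MHtpy (i' ≫ q') 0 := MHtpy.of_eq h'.iq
  have ht : ∀ {X Y Z : M} {g : X ⟶ Y} {h : Y ⟶ Z}, MHtpy (g ≫ h) 0 →
      MHtpy (g ▷ S M ≫ h ▷ S M) 0 := by
    intro X Y Z g h H
    rw [← comp_whiskerRight]
    exact (H.whiskerRight (S M)).trans (MHtpy.of_eq (zero_whiskerRight' _))
  have hw : ∀ {X Y X' Y' : M} {g : X ⟶ Y} {b : Y ⟶ Y'} {a : X ⟶ X'} {g' : X' ⟶ Y'},
      g ≫ b = a ≫ g' → g ▷ S M ≫ b ▷ S M = a ▷ S M ≫ g' ▷ S M := by
    intro X Y X' Y' g b a g' e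
    rw [← comp_whiskerRight, ← comp_whiskerRight, e]
  have hS : ∀ {X Y : M} {f : X ⟶ Y}, piW GG f → piW GG (f ▷ S M) := fun {X Y f} hf =>
    (piW_whiskerRight_S f).mpr hf
  refine ⟨fun ha hb => ?_, fun hb hc => ?_, fun ha hc => ?_⟩
  · exact P.five_seq (P.ex₁ h) (P.ex₂ h) (P.ex₃ h) h.comp₁ hiq h.comp₃
      (P.ex₁ h') (P.ex₂ h') (P.ex₃ h') h'.comp₁ hiq' h'.comp₃
      a b c (a ▷ S M) (b ▷ S M) w wi wq (hw w) ha hb (hS ha) (hS hb)
  · refine (piW_whiskerRight_S a).mp ?_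
    exact P.five_seq (P.ex₂ h) (P.ex₃ h) (P.ex₁ h).tensorS hiq h.comp₃ (ht h.comp₁)
      (P.ex₂ h') (P.ex₃ h') (P.ex₁ h').tensorS hiq' h'.comp₃ (ht h'.comp₁)
      b c (a ▷ S M) (b ▷ S M) (c ▷ S M) wi wq (hw w) (hw wi) hb hc (hS hb) (hS hc)
  · refine (piW_whiskerRight_S b).mp ?_
    exact P.five_seq (P.ex₃ h) (P.ex₁ h).tensorS (P.ex₂ h).tensorS h.comp₃ (ht h.comp₁) (ht hiq)
      (P.ex₃ h') (P.ex₁ h').tensorS (P.ex₂ h').tensorS h'.comp₃ (ht h'.comp₁) (ht hiq')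
      c (a ▷ S M) (b ▷ S M) (c ▷ S M) ((a ▷ S M) ▷ S M) wq (hw w) (hw wi) (hw wq)
      hc (hS ha) (hS hc) (hS (hS ha))

include P in
/-- 2 out of 3 for morphisms of cofibre sequences of h-cofibrations -/
theorem five_cof {GG : ObjectProperty M} [IsTest GG] {A B Q A' B' Q' : M} {i : A ⟶ B}
    {q : B ⟶ Q} {i' : A' ⟶ B'} {q' : B' ⟶ Q'}
    (hi : HCof i) (hq : IsCofibre i q) (hi' : HCof i') (hq' : IsCofibre i' q')
    (a : A ⟶ A') (b : B ⟶ B') (c : Q ⟶ Q') (w₁ : i ≫ b = a ≫ i') (w₂ : q ≫ c = b ≫ q') :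
    (piW GG a → piW GG b → piW GG c) ∧ (piW GG b → piW GG c → piW GG a) ∧
      (piW GG a → piW GG c → piW GG b) := by
  obtain ⟨C, k, j, d, h⟩ := IsCone.exists_isCone i
  obtain ⟨C', k', j', d', h'⟩ := IsCone.exists_isCone i'
  -- the comparison maps from the cones to the cofibres
  have he : coneBase A ≫ (0 : A ⊗ CI M ⟶ Q) = i ≫ q := by rw [comp_zero, hq.comp_eq_zero]
  have he' : coneBase A' ≫ (0 : A' ⊗ CI M ⟶ Q') = i' ≫ q' := by
    rw [comp_zero, hq'.comp_eq_zero]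
  let e : C ⟶ Q := h.po.desc 0 q he
  let e' : C' ⟶ Q' := h'.po.desc 0 q' he'
  have e1 : k ≫ e = 0 := h.po.inl_desc _ _ _
  have e2 : j ≫ e = q := h.po.inr_desc _ _ _
  have e1' : k' ≫ e' = 0 := h'.po.inl_desc _ _ _
  have e2' : j' ≫ e' = q' := h'.po.inr_desc _ _ _
  have hwe : ∀ {A B Q C : M} {i : A ⟶ B} {q : B ⟶ Q} (_ : HCof i) (_ : IsCofibre i q)
      {k : A ⊗ CI M ⟶ C} {j : B ⟶ C} (_ : IsPushout (coneBase A) i k j) (e : C ⟶ Q),
      k ≫ e = 0 → j ≫ e = q → piW GG e := by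
    intro A B Q C i q hi hq k j hC e e1 e2
    obtain ⟨g, g1, g2⟩ := hi.exists_cone_inverse hC (isZero_zero M)
      (hq.isPushout (isZero_zero M) 0 0) e e1 e2
    exact piW_of_inverse e g g1 g2
  have we : piW GG e := hwe hi hq h.po e e1 e2
  have we' : piW GG e' := hwe hi' hq' h'.po e' e1' e2'
  -- the map of cones
  have hc : coneBase A ≫ a ▷ CI M ≫ k' = i ≫ b ≫ j' := by
    rw [coneBase_naturality_assoc, h'.po.w, reassoc_of% w₁]
  let t : C ⟶ C' := h.po.desc (a ▷ CI M ≫ k') (b ≫ j') hc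
  have t1 : k ≫ t = a ▷ CI M ≫ k' := h.po.inl_desc _ _ _
  have t2 : j ≫ t = b ≫ j' := h.po.inr_desc _ _ _
  have hte : t ≫ e' = e ≫ c := by
    apply h.po.hom_ext
    · rw [reassoc_of% t1, e1', reassoc_of% e1, zero_comp, comp_zero]
    · rw [reassoc_of% t2, e2', reassoc_of% e2, w₂]
  have htc : piW GG t ↔ piW GG c := by
    rw [← (piW GG).postcomp_iff t e' we', hte, (piW GG).precomp_iff e c we]
  rw [← htc]
  exact P.five_cone h h' a b t w₁ t1 t2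

include P in
/-- The stable equivalences have all the properties needed. -/
theorem goodW (GG : ObjectProperty M) [IsTest GG] : GoodW (piW GG) where
  isIso f _ := piW_of_isIso f
  comp f g hf hg := (piW GG).comp_mem f g hf hg
  left f g hf hfg := (piW GG).of_precomp f g hf hfg
  right f g hg hfg := (piW GG).of_postcomp f g hg hfg
  htpy h hf := piW_congr h hf
  hequiv f g h₁ h₂ := piW_of_inverse f g h₁ h₂
  sigma f hf := by
    refine piW_sigma_of_binary ?_ f hf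
    intro X Y X' Y' f f' h h'
    have key : ∀ X X' : M, HCof (coprod.inl : X ⟶ X ⨿ X') ∧
        IsCofibre (coprod.inl : X ⟶ X ⨿ X') (coprod.desc 0 (𝟙 X')) := by
      intro X X'
      have hz := (isPushout_coprod_of_isZero (isZero_zero M) X X' (0 : (0 : M) ⟶ X) 0).flip
      refine ⟨HCof.of_isPushout hz (HCof.of_isZero (isZero_zero M) _), ?_⟩
      obtain ⟨r, h1, h2, h3⟩ := IsCofibre.of_pushout hz
        (IsCofibre.of_isZero_src (isZero_zero M) (0 : (0 : M) ⟶ X') (𝟙 X'))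
      have : coprod.desc 0 (𝟙 X') = r := by
        apply coprod.hom_ext
        · rw [coprod.inl_desc, h2]
        · rw [coprod.inr_desc, h1]
      rwa [this]
    refine (P.five_cof (key X X').1 (key X X').2 (key Y Y').1 (key Y Y').2 f (coprod.map f f') f'
      (coprod.inl_map _ _) ?_).2.2 h h'
    apply coprod.hom_ext
    · rw [coprod.inl_desc_assoc, coprod.inl_map_assoc, coprod.inl_desc, zero_comp, comp_zero]
    · rw [coprod.inr_desc_assoc, coprod.inr_map_assoc, coprod.inr_desc, Category.id_comp,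
        Category.comp_id]
  tensorS f hf := (piW_whiskerLeft_S f).mpr hf
  tensorL f hf := (piW_whiskerLeft_L f).mpr hf
  five hi hq hi' hq' a b c w₁ w₂ := P.five_cof hi hq hi' hq' a b c w₁ w₂

end PuppeInput

end StabInput

end Vale.Agent.P251.H.GS
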