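import Vale.Agent.P251.H.Puppe
import Vale.Agent.P241GS.HM
import Vale.Agent.P241GS.HCofCyl
import Vale.Agent.P241GS.HCofJ
import Vale.Agent.P241GS.HCofCone

/-!
# P241G (copy of P251, part H, for a weaker input class): the first unstable Puppe statement

For `f : X ⟶ Y` with mapping cone `i : Y ⟶ C` and `g : B ⟶ Y` with `g ≫ i` null homotopic there is
`g₁ : B ⊗ S ⟶ X ⊗ S` with `g₁ ≫ (f ▷ S)` homotopic to `g ▷ S`.
-/

open CategoryTheory MonoidalCategory Limits Topology OnePoint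

namespace Vale.Agent.P251.H.GS

open Vale.Agent.P251.G Vale.Agent.P251.G.LC Vale.Agent.P251.H.LP

universe v u

namespace StabInput

variable {M : Type u} [Category.{v} M] [MonoidalCategory M] [SymmetricCategory M]
    [MonoidalClosed M] [HasZeroMorphisms M] [HasColimitsOfSize.{0, 0} M] [StabInput M]

open Functor.LaxMonoidal Functor.OplaxMonoidal

/-- contractible objects -/
def MContr (Z : M) : Prop := MHtpy (𝟙 Z) 0

theorem mcontr_CI : MContr (CI M) := by
  have h := MHtpy.map (M := M) contr_HH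
  rw [CategoryTheory.Functor.map_id, J_map_zero] at h
  exact h

theorem mcontr_tensor_CI (Y : M) : MContr (Y ⊗ CI M) := by
  have h := MHtpy.whiskerLeft Y (mcontr_CI (M := M))
  rw [MonoidalCategory.whiskerLeft_id, whiskerLeft_zero'] at h
  exact h

/-- maps to contractible objects extend along h-cofibrations -/
theorem exists_ext_of_mcontr {A B Z : M} {i : A ⟶ B} (hi : HCof i) (hZ : MContr Z) (w : A ⟶ Z) :
    ∃ v : B ⟶ Z, i ≫ v = w := by
  obtain ⟨c, h0, h1⟩ := MHtpy.symm hZ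
  obtain ⟨K, -, hK⟩ := hi Z 0 (w ▷ I M ≫ c) (by
    rw [StabInput.inc_naturality_assoc, h0, comp_zero, comp_zero])
  refine ⟨inc 1 B ≫ K, ?_⟩
  rw [← StabInput.inc_naturality_assoc, hK, StabInput.inc_naturality_assoc, h1, Category.comp_id]

/-- two maps to a contractible object which agree on `A` are homotopic relative to `A` -/
theorem exists_rel_htpy {A B Z : M} {i : A ⟶ B} (hi : HCof i) (hZ : MContr Z) (w v : B ⟶ Z)
    (h : i ≫ w = i ≫ v) :
    ∃ K : B ⊗ I M ⟶ Z, inc 0 B ≫ K = w ∧ inc 1 B ≫ K = v ∧ i ▷ I M ≫ K = pr A ≫ i ≫ w := by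
  have hP := IsPushout.of_hasPushout (coprod.map i i) (coprod.desc (inc 0 A) (inc 1 A))
  have hd : coprod.map i i ≫ coprod.desc (inc 0 B) (inc 1 B) =
      coprod.desc (inc 0 A) (inc 1 A) ≫ i ▷ I M := by
    apply coprod.hom_ext
    · rw [coprod.inl_map_assoc, coprod.inl_desc, coprod.inl_desc_assoc,
        StabInput.inc_naturality]
    · rw [coprod.inr_map_assoc, coprod.inr_desc, coprod.inr_desc_assoc,
        StabInput.inc_naturality]
  have hC : HCof (hP.desc _ _ hd) :=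
    hCof_pushoutProduct i _ _ _ hi hP (hP.inl_desc _ _ hd) (hP.inr_desc _ _ hd)
  have he : coprod.map i i ≫ coprod.desc w v =
      coprod.desc (inc 0 A) (inc 1 A) ≫ pr A ≫ i ≫ w := by
    apply coprod.hom_ext
    · rw [coprod.inl_map_assoc, coprod.inl_desc, coprod.inl_desc_assoc, inc_pr_assoc]
    · rw [coprod.inr_map_assoc, coprod.inr_desc, coprod.inr_desc_assoc, inc_pr_assoc, h]
  obtain ⟨K, hK⟩ := exists_ext_of_mcontr hC hZ (hP.desc _ _ he)
  have h2 : coprod.desc (inc 0 B) (inc 1 B) ≫ K = coprod.desc w v := by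
    rw [← hP.inl_desc _ _ hd, Category.assoc, hK, hP.inl_desc]
  refine ⟨K, ?_, ?_, ?_⟩
  · have := congrArg (fun m => coprod.inl ≫ m) h2
    simpa only [coprod.inl_desc_assoc, coprod.inl_desc] using this
  · have := congrArg (fun m => coprod.inr ≫ m) h2
    simpa only [coprod.inr_desc_assoc, coprod.inr_desc] using this
  · rw [← hP.inr_desc _ _ hd, Category.assoc, hK, hP.inr_desc]

/-- the collapse `X ⊗ [0, ∞] ⟶ X ⊗ S¹` -/
noncomputable def ccoll (X : M) : X ⊗ CI M ⟶ X ⊗ S M := X ◁ (J M).map collHH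

@[reassoc]
theorem ccoll_naturality {X Y : M} (f : X ⟶ Y) : f ▷ CI M ≫ ccoll Y = ccoll X ≫ f ▷ S M := by
  rw [ccoll, ccoll, whisker_exchange]

theorem hCof_coneBase (X : M) : HCof (coneBase X) := by
  have h1 : HCof ((J M).map (point (X := HH) (0 : NNReal))) := by
    intro Z f H h
    exact exists_ext_of_cofib cofib_point_zero Z f H h
  have h2 : HCof (ε (J M) ≫ (J M).map (point (X := HH) (0 : NNReal))) :=
    (HCof.of_isIso _).comp h1
  exact (HCof.of_isIso _).comp (h2.whiskerLeft X)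

/-- a square `X ⊗ (unit square)` -/
theorem isPushout_coneBase_of {Q Z : LC} (X : M) {k : 𝟙_ LC ⟶ Z} {a : HH ⟶ Q} {l : Z ⟶ Q}
    (h : IsPushout (point (X := HH) (0 : NNReal)) k a l) :
    IsPushout (coneBase X) ((ρ_ X).inv ≫ X ◁ (ε (J M) ≫ (J M).map k)) (X ◁ (J M).map a)
      (X ◁ (J M).map l) := by
  refine (isPushout_tensor X (injective_point (X := HH) 0) h).of_iso
    ((whiskerLeftIso X (Functor.Monoidal.εIso (J M)).symm) ≪≫ ρ_ X) (Iso.refl _) (Iso.refl _)
    (Iso.refl _) ?_ ?_ ?_ ?_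
  · simp [coneBase, zeroHH]
  · simp
  · simp
  · simp

/-- `X ⟶ X ⊗ [0, ∞] ⟶ X ⊗ S¹` is a cofibre sequence -/
theorem isPushout_ccoll (X : M) {O : M} (hO : IsZero O) (k : X ⟶ O) (l : O ⟶ X ⊗ S M) :
    IsPushout (coneBase X) k (ccoll X) l := by
  have hE : IsZero (LC.of Empty) := by
    rw [IsZero.iff_id_eq_zero]
    apply hom_ext
    intro x
    exact isEmptyElim x
  have h := isPushout_coneBase_of X (isPushout_zeroHH hE 0 0)
  have hZ : IsZero (X ⊗ (J M).obj (LC.of Empty)) := isZero_tensor_left isZero_empty X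
  refine h.of_iso (Iso.refl _) (Iso.refl _) (hZ.iso hO) (Iso.refl _) ?_ ?_ ?_ ?_
  · simp
  · exact hO.eq_of_tgt _ _
  · simp [ccoll]
  · exact hZ.eq_of_src _ _

@[reassoc (attr := simp)]
theorem coneBase_ccoll (X : M) : coneBase X ≫ ccoll X = 0 := by
  have h := (isPushout_ccoll X (isZero_empty (M := M)) 0 0).w
  rw [h, zero_comp]

/-- a null homotopy gives a map out of the cone -/
theorem exists_cone_of_null {B C : M} {h : B ⟶ C} (hh : MHtpy h 0) :
    ∃ N : B ⊗ CI M ⟶ C, coneBase B ≫ N = h := by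
  obtain ⟨H, h0, h1⟩ := hh
  have hE : IsZero (LC.of Empty) := by
    rw [IsZero.iff_id_eq_zero]
    apply hom_ext
    intro x
    exact isEmptyElim x
  have hp := isPushout_tensor B (injective_point (X := II) 1)
    (isPushout_endColl hE 0 0)
  have hc : B ◁ (J M).map (point (X := II) 1) ≫ H = B ◁ (J M).map (0 : 𝟙_ LC ⟶ LC.of Empty) ≫
      (0 : B ⊗ (J M).obj (LC.of Empty) ⟶ C) := by
    rw [comp_zero]
    have e1 : B ◁ (J M).map (point (X := II) 1) ≫ H =
        B ◁ η (J M) ≫ (ρ_ B).hom ≫ inc 1 B ≫ H := by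
      rw [inc_def, Category.assoc, Iso.hom_inv_id_assoc,
        ← MonoidalCategory.whiskerLeft_comp_assoc, Functor.Monoidal.η_ε_assoc]
    rw [e1, h1, comp_zero, comp_zero]
  refine ⟨hp.desc H 0 hc, ?_⟩
  have e2 : coneBase B = inc 0 B ≫ B ◁ (J M).map endColl := (inc_zero_cylCone B).symm
  rw [e2, Category.assoc, hp.inl_desc, h0]

/-- **First Puppe statement.** -/
theorem exists_puppe {X Y C : M} {f : X ⟶ Y} {k : X ⊗ CI M ⟶ C} {i : Y ⟶ C}
    (hC : IsPushout (coneBase X) f k i) {B : M} (g : B ⟶ Y) (hg : MHtpy (g ≫ i) 0) :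
    ∃ g₁ : B ⊗ S M ⟶ X ⊗ S M, MHtpy (g₁ ≫ f ▷ S M) (g ▷ S M) := by
  obtain ⟨N, hN⟩ := exists_cone_of_null hg
  -- the collapse `C ⟶ X ⊗ S`
  let q : C ⟶ X ⊗ S M := hC.desc (ccoll X) 0 (by rw [coneBase_ccoll, comp_zero])
  have hkq : k ≫ q = ccoll X := hC.inl_desc _ _ _
  have hiq : i ≫ q = 0 := hC.inr_desc _ _ _
  -- the map `C ⟶ Y ⊗ CI`
  let θ : C ⟶ Y ⊗ CI M := hC.desc (f ▷ CI M) (coneBase Y) (coneBase_naturality f)
  have hkθ : k ≫ θ = f ▷ CI M := hC.inl_desc _ _ _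
  have hiθ : i ≫ θ = coneBase Y := hC.inr_desc _ _ _
  have hθq : θ ≫ ccoll Y = q ≫ f ▷ S M := by
    apply hC.hom_ext
    · rw [reassoc_of% hkθ, reassoc_of% hkq, ccoll_naturality]
    · rw [reassoc_of% hiθ, reassoc_of% hiq, coneBase_ccoll, zero_comp]
  -- the induced map on suspensions
  have hB := isPushout_ccoll B (isZero_empty (M := M)) 0 0
  have hg1 : coneBase B ≫ N ≫ q = 0 ≫ (0 : (J M).obj (LC.of Empty) ⟶ X ⊗ S M) := by
    rw [reassoc_of% hN, hiq, comp_zero, comp_zero]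
  let g₁ : B ⊗ S M ⟶ X ⊗ S M := hB.desc (N ≫ q) 0 hg1
  have hg₁ : ccoll B ≫ g₁ = N ≫ q := hB.inl_desc _ _ _
  refine ⟨g₁, ?_⟩
  -- the relative homotopy
  obtain ⟨K, k0, k1, kb⟩ := exists_rel_htpy (hCof_coneBase B) (mcontr_tensor_CI Y) (N ≫ θ)
    (g ▷ CI M) (by rw [reassoc_of% hN, hiθ, coneBase_naturality])
  have hBI := isPushout_whiskerRight (I M) hB
  have hKc : coneBase B ▷ I M ≫ K ≫ ccoll Y =
      (0 : B ⟶ (J M).obj (LC.of Empty)) ▷ I M ≫ 0 := by
    rw [reassoc_of% kb, reassoc_of% hN, reassoc_of% hiθ, coneBase_ccoll, comp_zero, comp_zero,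
      comp_zero]
  refine ⟨hBI.desc (K ≫ ccoll Y) 0 hKc, ?_, ?_⟩
  · apply hB.hom_ext
    · change ccoll B ≫ inc 0 (B ⊗ S M) ≫ _ = _
      rw [← StabInput.inc_naturality_assoc, hBI.inl_desc, reassoc_of% k0, hθq, reassoc_of% hg₁]
    · exact (isZero_empty (M := M)).eq_of_src _ _
  · apply hB.hom_ext
    · change ccoll B ≫ inc 1 (B ⊗ S M) ≫ _ = _
      rw [← StabInput.inc_naturality_assoc, hBI.inl_desc, reassoc_of% k1, ccoll_naturality]
    · exact (isZero_empty (M := M)).eq_of_src _ _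

end StabInput

end Vale.Agent.P251.H.GS
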