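import Vale.Agent.P251.H.ExPi
import Vale.Agent.P241GS.Five
import Vale.Agent.P241GS.Puppe2

/-!
# P241G (copy of P251, part H, for a weaker input class): stable exactness from unstable exactness

`Ex.piEx`: `Ex a b` (unstable exactness after suspension) implies the exactness of stable homotopy
classes `PiEx a b`.  `PuppeInput.ofGroup`: the group structure is all that remains for
`PuppeInput`.
-/

open CategoryTheory MonoidalCategory Limits ZeroObject

namespace Vale.Agent.P251.H.GS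

open Vale.Agent.P251.G Vale.Agent.P251.G.LC LP

universe v u

namespace StabInput

variable {M : Type u} [Category.{v} M] [MonoidalCategory M] [SymmetricCategory M]
    [MonoidalClosed M] [HasZeroMorphisms M] [HasColimitsOfSize.{0, 0} M] [StabInput M]

/-- the isomorphism `U ⊗ B ≅ L ⊗ (B ⊗ S)` -/
def uSwap (B : M) : U M ⊗ B ≅ (L : M) ⊗ (B ⊗ S M) :=
  α_ (L : M) (S M) B ≪≫ whiskerLeftIso (L : M) (β_ (S M) B)

@[reassoc]
theorem uSwap_unsusp (B : M) : (uSwap B).hom ≫ unsusp B = lamU M ▷ B ≫ (λ_ B).hom := by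
  simp only [uSwap, unsusp, Iso.trans_hom, whiskerLeftIso_hom, Category.assoc]
  rw [← MonoidalCategory.whiskerLeft_comp_assoc, SymmetricCategory.symmetry,
    MonoidalCategory.whiskerLeft_id, Category.id_comp, Iso.hom_inv_id_assoc]

/-- unstable exactness implies stable exactness -/
theorem Ex.piEx {X Y Z : M} {a : X ⟶ Y} {b : Y ⟶ Z} (h : Ex a b) : PiEx a b := by
  intro A y hy
  obtain ⟨k, g, rfl⟩ := CoPt.cl_surj y
  have hy' : (stab M).coPt.cl k (g ≫ (HM.proj M).map b) =
      (stab M).coPt.cl (A := (HM.proj M).obj A) (X := (HM.proj M).obj Z) k 0 := by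
    rw [cl_zero]
    exact hy
  rw [CoPt.cl_eq_iff'] at hy'
  obtain ⟨m, hkm, e⟩ := hy'
  rw [comp_zero, ← Category.assoc] at e
  rw [← CoPt.cl_tr hkm g]
  let B : M := ((stab M).coPt.pw m ((HM.proj M).obj A)).obj
  obtain ⟨g', hg'⟩ : ∃ g' : B ⟶ Y, (HM.proj M).map g' =
      (stab M).coPt.tr hkm ((HM.proj M).obj A) ≫ g := HM.proj_map_surjective _
  rw [← hg'] at e ⊢
  have hg0 : MHtpy (g' ≫ b) 0 := (HM.proj_map_eq_iff _ _).mp (by
    rw [Functor.map_comp, HM.proj_map_zero]
    exact e)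
  obtain ⟨g₁, hg₁⟩ := h B g' hg0
  refine ⟨(stab M).coPt.cl (m + 1)
    ((HM.proj M).map ((uSwap B).hom ≫ (L : M) ◁ g₁ ≫ unsusp X)), ?_⟩
  have h1 : MHtpy (((uSwap B).hom ≫ (L : M) ◁ g₁ ≫ unsusp X) ≫ a)
      ((lamU M ▷ B ≫ (λ_ B).hom) ≫ g') := by
    have h2 : ((uSwap B).hom ≫ (L : M) ◁ g₁ ≫ unsusp X) ≫ a =
        (uSwap B).hom ≫ (L : M) ◁ (g₁ ≫ a ▷ S M) ≫ unsusp Y := by
      rw [MonoidalCategory.whiskerLeft_comp]
      simp only [Category.assoc]
      rw [unsusp_naturality]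
    have h3 : (lamU M ▷ B ≫ (λ_ B).hom) ≫ g' =
        (uSwap B).hom ≫ (L : M) ◁ (g' ▷ S M) ≫ unsusp Y := by
      rw [unsusp_naturality, ← uSwap_unsusp, Category.assoc]
    rw [h2, h3]
    exact MHtpy.comp_left _ ((hg₁.whiskerLeft (L : M)).comp_right _)
  have h4 := HM.sound h1
  refine (CoPt.map_cl _ _ _ _ _).trans ?_
  refine (congrArg ((stab M).coPt.cl (m + 1)) h4).trans ?_
  exact CoPt.cl_succ (P := (stab M).coPt) (A := (HM.proj M).obj A) (X := (HM.proj M).obj Y) m
    ((HM.proj M).map g')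

/-- The Puppe input from a natural group structure on stable homotopy classes. -/
def PuppeInput.ofGroup (grp : ∀ A X : M, AddGroup (PiM A X))
    (map_add : ∀ (A : M) {X Y : M} (f : X ⟶ Y) (x y : PiM A X),
      mapM A f (x + y) = mapM A f x + mapM A f y) : PuppeInput M where
  grp := grp
  map_add := map_add
  ex₁ h := (ex_cone h.po).piEx
  ex₂ h := (ex_collapse h.po h.kq h.iq).piEx
  ex₃ h := (ex_whiskerRight h.po h.kq h.iq).piEx

end StabInput

end Vale.Agent.P251.H.GS
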