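import Vale.Agent.P251.H.PuppeInst
import Vale.Agent.P241GS.Exact
import Vale.Agent.P241GS.ExPi
import Vale.Agent.P241GS.Five

/-!
# P241G (copy of P251, part H, for a weaker input class): the stable equivalences form a good class

`puppeInput M : PuppeInput M` and the instance `GoodW (piW GG)` for every class of test objects.
-/

open CategoryTheory MonoidalCategory Limits

namespace Vale.Agent.P251.H.GS

universe v u

namespace StabInput

variable (M : Type u) [Category.{v} M] [MonoidalCategory M] [SymmetricCategory M]
    [MonoidalClosed M] [HasZeroMorphisms M] [HasColimitsOfSize.{0, 0} M] [StabInput M]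

/-- group structure and exactness of the stable classes -/
noncomputable def puppeInput : PuppeInput M :=
  PuppeInput.ofGroup (fun A X => (inferInstance : AddCommGroup (PiM A X)).toAddGroup)
    (fun A _ _ f x y => mapM_add A f x y)

variable {M}

/-- The stable equivalences form a good class. -/
instance goodW_inst (GG : ObjectProperty M) [IsTest GG] : GoodW (piW GG) :=
  (puppeInput M).goodW GG

end StabInput

end Vale.Agent.P251.H.GS
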